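import Crest.Agent.H6.EgExc

set_option autoImplicit false

namespace Crest.Agent.H6.Eg

open Finset

lemma exists_PSet {m : ℕ} (hm1 : 1 ≤ m) (hm : 3000 * m ≤ 2^m) : ∃ P, PSet m P := by
  classical
  set N := 2^(909*m) with hN
  have hpi := Chebyshev.pi_ge N
  have hlog2 : 0 < Real.log 2 := Real.log_pos (by norm_num)
  have hlogN : Real.log (N:ℝ) = (909*m) * Real.log 2 := by
    rw [hN]; push_cast
    rw [Real.log_pow]; push_cast; ring
  have hm' : (1:ℝ) ≤ m := by exact_mod_cast hm1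
  have hNpos : (0:ℝ) < N := by rw [hN]; positivity
  have hlogN1 : Real.log ((N:ℝ)+1) ≤ (909*m) * Real.log 2 + Real.log 2 := by
    rw [← hlogN, ← Real.log_mul (by positivity) (by norm_num)]
    apply Real.log_le_log (by positivity)
    have : (1:ℝ) ≤ N := by
      rw [hN]; push_cast; exact one_le_pow₀ (by norm_num)
    linarith
  have h1 : (N:ℝ)/(909*m) - 2 ≤ Nat.primeCounting N := by
    refine le_trans ?_ hpi
    rw [hlogN]
    rw [le_div_iff₀ (by positivity)]
    have e : ((N:ℝ)/(909*m) - 2) * (909*m*Real.log 2) = N * Real.log 2 - 2 * (909*m) * Real.log 2 := by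
      field_simp
    rw [e]
    nlinarith
  have h2 : (2:ℝ)^(908*m) + 2^(907*m) + 2 ≤ (N:ℝ)/(909*m) := by
    rw [le_div_iff₀ (by positivity)]
    have hN2 : (N:ℝ) = 2^(908*m) * 2^m := by
      rw [hN]; push_cast; rw [← pow_add]; congr 1; ring
    rw [hN2]
    have h3 : (3000:ℝ) * m ≤ 2^m := by exact_mod_cast hm
    have h4 : (2:ℝ)^(907*m) ≤ 2^(908*m) := pow_le_pow_right₀ (by norm_num) (by omega)
    have h5 : (2:ℝ) ≤ 2^(908*m) := by
      calc (2:ℝ) = 2^1 := by norm_num
        _ ≤ _ := pow_le_pow_right₀ (by norm_num) (by omega)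
    have h6 : (2:ℝ)^(908*m) * (3000*m) ≤ 2^(908*m) * 2^m := mul_le_mul_of_nonneg_left h3 (by positivity)
    have h7 : ((2:ℝ)^(908*m) + 2^(907*m) + 2) * (909*m) ≤ (3 * 2^(908*m)) * (909*m) := by
      apply mul_le_mul_of_nonneg_right _ (by positivity)
      linarith
    have h8 : (0:ℝ) < 2^(908*m) * m := by positivity
    nlinarith
  have h3 : 2^(908*m) + 2^(907*m) ≤ Nat.primeCounting N := by
    have : ((2^(908*m) + 2^(907*m) : ℕ) : ℝ) ≤ (Nat.primeCounting N : ℝ) := by
      push_cast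
      linarith
    exact_mod_cast this
  set T := (Finset.Ioc (2^(908*m)) N).filter Nat.Prime with hT
  have h4 : 2^(907*m) ≤ T.card := by
    have h5 : Nat.primeCounting N = ((range (N+1)).filter Nat.Prime).card := by
      rw [Nat.primeCounting, Nat.primeCounting', Nat.count_eq_card_filter_range]
    have h6 : (range (N+1)).filter Nat.Prime ⊆ Finset.Icc 1 (2^(908*m)) ∪ T := by
      intro p hp
      obtain ⟨hp1, hp2⟩ := Finset.mem_filter.1 hp
      rw [Finset.mem_range, Nat.lt_succ_iff] at hp1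
      rw [Finset.mem_union, Finset.mem_Icc, hT, Finset.mem_filter, Finset.mem_Ioc]
      rcases le_or_gt p (2^(908*m)) with h | h
      · left; exact ⟨hp2.one_le, h⟩
      · right; exact ⟨⟨h, hp1⟩, hp2⟩
    have h7 := (Finset.card_le_card h6).trans (Finset.card_union_le _ _)
    rw [← h5, Nat.card_Icc, Nat.add_sub_cancel] at h7
    exact Nat.le_of_add_le_add_left (h3.trans h7)
  obtain ⟨P, hPT, hPc⟩ := Finset.exists_subset_card_eq h4
  refine ⟨P, ⟨?_, ?_, ?_, hPc⟩⟩
  · intro p hp; exact (Finset.mem_filter.1 (hPT hp)).2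
  · intro p hp; exact (Finset.mem_Ioc.1 (Finset.mem_filter.1 (hPT hp)).1).1
  · intro p hp; exact (Finset.mem_Ioc.1 (Finset.mem_filter.1 (hPT hp)).1).2

end Crest.Agent.H6.Eg
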