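import Crest.Agent.H6.EgPhase
import Crest.Agent.H6.EgPrimes

set_option autoImplicit false

namespace Crest.Agent.H6.Eg

open Finset

/-- all the data of the construction -/
structure Env (m K n : ℕ) (P : Finset ℕ) (S0 : Finset (Fin n)) (p : Fin n → ℕ) : Prop where
  hm : 20 ≤ m
  hm2 : 3000 * m ≤ 2^m
  hn : n = 4000000000 * K
  hn2 : n ≤ 2^m
  hK : 1000 * m^2 ≤ K
  hP : PSet m P
  hS0 : S0.card = 100000 * K
  hp : ∀ i, p i ∈ P
  hinj : Function.Injective p
  hnb : ∀ S : Finset (Fin n), (S = S0 ∨ n - S.card ≤ 2*(100000*K)) → ∀ q, ∀ _ : NeZero q,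
    Good m P q → 2^(7272*m) < q → q ≤ (2^(3636*m))^(S.card/100000) →
      ¬ Bad q (2*(2*20000*m)) S p

section
variable {m K n : ℕ} {P : Finset ℕ} {S0 : Finset (Fin n)} {p : Fin n → ℕ}

lemma Env.Kge (h : Env m K n P S0 p) : 20000 * m ≤ K := by
  have := h.hK
  have := h.hm
  nlinarith

lemma Env.sge (h : Env m K n P S0 p) : 1000000 * m ≤ 3636*m*K := by
  have h1 := h.Kge
  have h2 := h.hm
  nlinarith

lemma Env.Ks (h : Env m K n P S0 p) : K ≤ 3636*m*K := by
  have h2 := h.hm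
  nlinarith

lemma Env.ppos (h : Env m K n P S0 p) (i : Fin n) : 0 < p i := (h.hP.prime _ (h.hp i)).pos

lemma Env.ple (h : Env m K n P S0 p) (i : Fin n) : p i ≤ 2^(909*m) := h.hP.hi _ (h.hp i)

/-- `s ≤ A_*` for the first block -/
lemma Env.s_le (h : Env m K n P S0 p) (T : Fin (80000*m) → Finset (Fin n)) (hT : ∀ i, T i ⊆ S0)
    {w : ℕ} (hw : w < 2^(22000*m)) :
    (∑ i, ∏ j ∈ T i, p j) + w ≤ 2^(25001*(3636*m*K)) := by
  have hsge := h.sge
  set σ := 3636*m*K with hσ
  have h1 : ∀ i, ∏ j ∈ T i, p j ≤ 2^(25000*σ) := by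
    intro i
    calc ∏ j ∈ T i, p j ≤ ∏ j ∈ T i, 2^(909*m) := Finset.prod_le_prod' (fun j _ => h.ple j)
      _ = (2^(909*m))^(T i).card := by rw [Finset.prod_const]
      _ ≤ (2^(909*m))^(100000*K) := by
          apply Nat.pow_le_pow_right (by positivity)
          rw [← h.hS0]; exact Finset.card_le_card (hT i)
      _ = 2^(25000*σ) := by rw [← pow_mul, hσ]; congr 1; ring
  have h2 : ∑ i, ∏ j ∈ T i, p j ≤ (80000*m) * 2^(25000*σ) := by
    refine (Finset.sum_le_card_nsmul _ _ _ (fun i _ => h1 i)).trans ?_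
    simp
  have h3 : 80000*m + 1 ≤ 2^σ := by
    have := h.hm2
    have : 2^m * 2^m ≤ 2^σ := by
      rw [← pow_add]; exact Nat.pow_le_pow_right (by norm_num) (by omega)
    have h20 : 2^20 ≤ 2^m := Nat.pow_le_pow_right (by norm_num) h.hm
    nlinarith
  have h4 : 2^(22000*m) ≤ 2^(25000*σ) := Nat.pow_le_pow_right (by norm_num) (by omega)
  calc (∑ i, ∏ j ∈ T i, p j) + w ≤ (80000*m) * 2^(25000*σ) + 2^(25000*σ) :=
        Nat.add_le_add h2 (hw.le.trans h4)
    _ = (80000*m+1) * 2^(25000*σ) := by ring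
    _ ≤ 2^σ * 2^(25000*σ) := Nat.mul_le_mul_right _ h3
    _ = _ := by rw [← pow_add]; congr 1; ring

lemma Env.scond (h : Env m K n P S0 p) {c : ℕ} (hc : c ≤ 27000) :
    (2*(c*(3636*m*K))+1)/(900*m)+1 ≤ 2^m := by
  have hm := h.hm
  have h1 : (2*(c*(3636*m*K))+1)/(900*m) < 300000*K := by
    apply Nat.div_lt_of_lt_mul
    have h2 : c*(3636*m*K) ≤ 27000*(3636*m*K) := Nat.mul_le_mul_right _ hc
    have h3 : 900*m*(300000*K) = 270000000*(m*K) := by ring
    have h4 : 27000*(3636*m*K) = 98172000*(m*K) := by ring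
    have h5 : 1 ≤ m*K := by
      have := h.Kge
      nlinarith
    rw [h3]
    rw [h4] at h2
    omega
  have := h.hn2
  have := h.hn
  omega

lemma phase2_step (h : Env m K n P S0 p) {A D J v1 : ℕ}
    (hD : D = 2^v1 * (∏ i, p i) * J) (hDpos : 0 < D) (hv : 22000*m ≤ v1)
    (hA : 2^(25001*(3636*m*K)) ≤ A)
    (hHA : 2^(3636*m*K - 909*m - 2) * A ≤ D) (hJ : J < 2^(3636*m*K - 909*m - 2) * A) :
    ∃ (A2 : ℕ) (r : ℚ), (A:ℚ)/D = r + (A2:ℚ)/D ∧ Rep r (1 + (80000*m + 22000*m)) ∧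
      A2 * 2^((3636*m*K)/2) ≤ A := by
  have hsge := h.sge
  have hscond := h.scond (c := 1) (by norm_num)
  have hm := h.hm
  rw [one_mul] at hscond
  have hpow : (2^(3636*m))^(S0.card/100000) = 2^(3636*m*K) := by
    rw [h.hS0, Nat.mul_div_cancel_left _ (by norm_num), ← pow_mul]
  have hsle := h.s_le
  have hApos : 0 < A := lt_of_lt_of_le (by positivity) hA
  set σ := 3636*m*K with hσ
  set H := 2^(σ - 909*m - 2) with hH
  -- the chain
  have hCh : Ch (2^(909*m)) (2^v1 * ∏ i, p i) :=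
    (Ch.pow_two (by
      calc 2 = 2^1 := by norm_num
        _ ≤ _ := Nat.pow_le_pow_right (by norm_num) (by omega)) v1).prod univ p
      (fun i _ => ⟨h.ppos i, h.ple i⟩)
  obtain ⟨e, he, E, h1, h2, h3, h4⟩ := hCh.2 J (H*A) (by rw [mul_comm J, ← hD]; exact hHA) hJ
  have hDE : D = e * E := by rw [hD, h1]
  -- the quotient
  set y := E/A with hy
  have hyH : H ≤ y := by rw [hy, Nat.le_div_iff_mul_le hApos]; exact h3
  have hyle : A * y ≤ E := Nat.mul_div_le E A
  have hylt : E < A*(y+1) := Nat.lt_mul_div_succ E hApos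
  have hyGH : y < 2^(σ-2) := by
    rw [hy]
    apply Nat.div_lt_of_lt_mul
    refine lt_of_lt_of_eq h4 ?_
    have : 2^(909*m) * H = 2^(σ-2) := by rw [hH, ← pow_add]; congr 1; omega
    rw [← mul_assoc, this]; ring
  set X := 2^(σ/30+3) with hX
  have hX2 : X + 2 ≤ 2^(σ/30+4) := by
    rw [hX, pow_succ 2 (σ/30+3)]
    have : 2 ≤ 2^(σ/30+3) := by
      calc 2 = 2^1 := by norm_num
        _ ≤ _ := Nat.pow_le_pow_right (by norm_num) (by omega)
    omega
  have hX3 : y + 2 + 1 * X ≤ 2^σ := by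
    have a1 : 2^(σ/30+4) ≤ 2^(σ-2) := Nat.pow_le_pow_right (by norm_num) (by omega)
    have a2 : 2^σ = 4 * 2^(σ-2) := by
      rw [show (4:ℕ) = 2^2 by norm_num, ← pow_add]; congr 1; omega
    rw [a2]
    omega
  obtain ⟨x, hxX, hgood⟩ := exists_good h.hP (by omega) (s := σ) (by omega) hscond 1 (y+2) X
    (Nat.coprime_one_left _) (Nat.succ_pos _)
    (by
      rw [hX, show (8:ℕ) = 2^3 by norm_num, ← pow_add]
      exact Nat.pow_le_pow_right (by norm_num) (by omega))
    (by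
      rw [hX, show (8:ℕ) = 2^3 by norm_num, ← pow_add]
      exact Nat.pow_le_pow_right (by norm_num) (by omega))
    hX3
  set hh := y + 2 + 1*x with hhh
  have hhpos : 0 < hh := hgood.1
  have hhle : hh ≤ (2^(3636*m))^(S0.card/100000) := by
    rw [hpow]; omega
  -- new numerator
  have hAh : E + A ≤ A*hh := by
    have : A*(y+2) ≤ A*hh := Nat.mul_le_mul_left A (by omega)
    have e1 : A*(y+2) = A*(y+1) + A := by ring
    omega
  set A1 := A*hh - E with hA1
  have hA1eq : A*hh = E + A1 := by omega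
  have hA1ge : A ≤ A1 := by omega
  have hA1le : A1 ≤ A*(X+2) := by
    have : A*hh ≤ A*(y+2+X) := Nat.mul_le_mul_left A (by omega)
    have e1 : A*(y+2+X) = A*y + A*(X+2) := by ring
    omega
  obtain ⟨T, hT, w, hw, hmod⟩ := cover (by omega) p S0 hgood hhle
    (fun q hq a1 a2 a3 => h.hnb S0 (Or.inl rfl) q hq a1 a2 a3) A1
  set s := (∑ i, ∏ j ∈ T i, p j) + w with hs
  have hsA1 : s ≤ A1 := (hsle T hT hw).trans (hA.trans hA1ge)
  obtain ⟨A2, hA2⟩ := (Nat.modEq_iff_dvd' hsA1).1 hmod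
  have hA12 : A1 = s + hh*A2 := by omega
  have hprodD : (2^v1 * ∏ i, p i) ∣ D := ⟨J, hD⟩
  refine ⟨A2, 1/((e*hh : ℕ):ℚ) + ((s:ℕ):ℚ)/D/(hh:ℚ), ?_, ?_, ?_⟩
  · have hD0 : (D:ℚ) ≠ 0 := by exact_mod_cast hDpos.ne'
    have hh0 : (hh:ℚ) ≠ 0 := by exact_mod_cast hhpos.ne'
    have he0 : (e:ℚ) ≠ 0 := by exact_mod_cast he.ne'
    have e1 : (A:ℚ)*hh = E + (s + hh*A2) := by
      have : A*hh = E + (s + hh*A2) := by rw [hA1eq, hA12]
      exact_mod_cast this
    have e2 : (D:ℚ) = e*E := by exact_mod_cast hDE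
    have hE0 : (E:ℚ) ≠ 0 := by
      intro h0
      rw [h0, mul_zero] at e2
      exact hD0 e2
    have e3 : (A:ℚ)/D = (A*hh)/(D*hh) := by field_simp
    rw [e3, e1, e2]
    push_cast
    field_simp
    ring
  · apply Rep.add (Rep.unit _ (Nat.mul_pos he hhpos))
    apply Rep.div _ _ hhpos
    apply rep_cover p T hw hDpos
    · exact (pow_dvd_pow 2 hv).trans ((Dvd.intro _ rfl).trans hprodD)
    · intro i
      refine (Finset.prod_dvd_prod_of_subset _ _ _ (Finset.subset_univ (T i))).trans ?_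
      exact (Dvd.intro_left _ rfl).trans hprodD
  · have b1 : hh * A2 ≤ A*(X+2) := by omega
    have b2 : H * A2 ≤ hh * A2 := Nat.mul_le_mul_right _ (by omega)
    have b3 : A*(X+2) ≤ A*2^(σ/30+4) := Nat.mul_le_mul_left A hX2
    have b4 : 2^(σ/30+4) * 2^(σ/2) ≤ H := by
      rw [hH, ← pow_add]
      exact Nat.pow_le_pow_right (by norm_num) (by omega)
    have b5 : 2^(σ/30+4) * 2^(σ/2) * A2 ≤ A*2^(σ/30+4) :=
      (Nat.mul_le_mul_right A2 b4).trans (b2.trans (b1.trans b3))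
    have b6 : 0 < 2^(σ/30+4) := by positivity
    have b7 : 2^(σ/30+4) * (A2 * 2^(σ/2)) ≤ 2^(σ/30+4) * A := by
      calc _ = 2^(σ/30+4) * 2^(σ/2) * A2 := by ring
        _ ≤ _ := b5
        _ = _ := by ring
    exact Nat.le_of_mul_le_mul_left b7 b6

/-- a power of two survives division by a small number -/
lemma pow_two_dvd {g D' a v : ℕ} (hg : 0 < g) (hga : g < 2^a) (h : 2^(v+a) ∣ g * D') : 2^v ∣ D' := by
  obtain ⟨e, g', hg', rfl⟩ := Nat.exists_eq_two_pow_mul_odd hg.ne'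
  have hea : e < a := by
    have h1 : 2^e ≤ 2^e * g' := Nat.le_mul_of_pos_right _ hg'.pos
    exact (Nat.pow_lt_pow_iff_right (by norm_num)).1 (lt_of_le_of_lt h1 hga)
  have h2 : 2^(v+a) = 2^e * 2^(v+a-e) := by rw [← pow_add]; congr 1; omega
  rw [h2, mul_assoc] at h
  have h3 := Nat.dvd_of_mul_dvd_mul_left (by positivity) h
  have h4 : Nat.Coprime (2^(v+a-e)) g' := by
    apply Nat.Coprime.pow_left
    exact (Nat.coprime_two_left).2 hg'
  exact (pow_dvd_pow 2 (by omega)).trans (h4.dvd_of_dvd_mul_left h3)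

lemma Env.prod_dvd (h : Env m K n P S0 p) (T : Finset (Fin n)) {x : ℕ} (hx : ∀ i ∈ T, p i ∣ x) :
    ∏ i ∈ T, p i ∣ x := by
  apply Finset.prod_dvd_of_isRelPrime _ hx
  intro i _ j _ hij
  simp only [Function.onFun]
  rw [← Nat.coprime_iff_isRelPrime]
  exact (Nat.coprime_primes (h.hP.prime _ (h.hp i)) (h.hP.prime _ (h.hp j))).2
    (fun heq => hij (h.hinj heq))

lemma phase3 (h : Env m K n P S0 p) {A D J v1 : ℕ}
    (hD : D = 2^v1 * (∏ i, p i) * J) (hDpos : 0 < D) (hv : v1 = 22000*m + 25001*(3636*m*K))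
    (hA : A < 2^(25001*(3636*m*K))) (hApos : 0 < A) :
    Rep ((A:ℚ)/D) (1 + (80000*m + 22000*m)) := by
  classical
  have hsge := h.sge
  have hscond := h.scond (c := 27000) (le_refl _)
  have hm := h.hm
  have hKge := h.Kge
  set σ := 3636*m*K with hσ
  set g := Nat.gcd A D with hg
  have hgpos : 0 < g := Nat.gcd_pos_of_pos_left D hApos
  obtain ⟨A', hA'⟩ := Nat.gcd_dvd_left A D
  obtain ⟨D', hD'⟩ := Nat.gcd_dvd_right A D
  rw [← hg] at hA' hD'
  have hA'pos : 0 < A' := by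
    rcases Nat.eq_zero_or_pos A' with h0 | h0
    · rw [h0, mul_zero] at hA'; omega
    · exact h0
  have hD'pos : 0 < D' := by
    rcases Nat.eq_zero_or_pos D' with h0 | h0
    · rw [h0, mul_zero] at hD'; omega
    · exact h0
  have hgA : g ≤ A := Nat.le_of_dvd hApos (Nat.gcd_dvd_left A D)
  have hcop : Nat.Coprime A' D' := by
    have h1 : Nat.gcd (g*A') (g*D') = g * Nat.gcd A' D' := Nat.gcd_mul_left g A' D'
    rw [← hA', ← hD', ← hg] at h1
    have h2 : g * 1 = g * Nat.gcd A' D' := by rw [mul_one]; exact h1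
    exact (Nat.eq_of_mul_eq_mul_left hgpos h2).symm
  have hA'A : A' ≤ A := by rw [hA']; exact Nat.le_mul_of_pos_left _ hgpos
  -- the surviving primes
  set S := (univ : Finset (Fin n)).filter (fun i => ¬ p i ∣ g) with hS
  have hScard : n - S.card ≤ 2*(100000*K) := by
    set Sc := (univ : Finset (Fin n)).filter (fun i => p i ∣ g) with hSc
    have h1 : Sc.card + S.card = n := by
      have := Finset.card_filter_add_card_filter_not (s := (univ : Finset (Fin n))) (fun i => p i ∣ g)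
      rw [Finset.card_univ, Fintype.card_fin] at this
      exact this
    have h2 : ∏ i ∈ Sc, p i ∣ g := h.prod_dvd Sc (fun i hi => (Finset.mem_filter.1 hi).2)
    have h3 : (2^(908*m))^Sc.card ≤ ∏ i ∈ Sc, p i := by
      rw [← Finset.prod_const]
      exact Finset.prod_le_prod' (fun i _ => (h.hP.lo _ (h.hp i)).le)
    have h4 : (2^(908*m))^Sc.card < 2^(25001*σ) :=
      lt_of_le_of_lt (h3.trans ((Nat.le_of_dvd hgpos h2).trans hgA)) hA
    rw [← pow_mul] at h4
    have h5 := (Nat.pow_lt_pow_iff_right (by norm_num)).1 h4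
    have h6 : Sc.card ≤ 200000*K := by
      by_contra hcon
      push Not at hcon
      have h7 : 908*m*(200000*K) ≤ 908*m*Sc.card := Nat.mul_le_mul_left _ hcon.le
      have h8 : 908*m*(200000*K) = 181600000*(m*K) := by ring
      have h9 : 25001*σ = 90903636*(m*K) := by rw [hσ]; ring
      rw [h8] at h7
      rw [h9] at h5
      omega
    omega
  have hdvd1 : ∀ T : Finset (Fin n), T ⊆ S → ∏ i ∈ T, p i ∣ D' := by
    intro T hT
    apply h.prod_dvd
    intro i hi
    have h1 : ¬ p i ∣ g := (Finset.mem_filter.1 (hT hi)).2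
    have h2 : p i ∣ g * D' := by
      rw [← hD', hD]
      exact Dvd.dvd.mul_right (Dvd.dvd.mul_left (Finset.dvd_prod_of_mem p (Finset.mem_univ i)) _) _
    exact ((h.hP.prime _ (h.hp i)).dvd_mul.1 h2).resolve_left h1
  have hdvd2 : 2^(22000*m) ∣ D' := by
    apply pow_two_dvd hgpos (lt_of_le_of_lt hgA hA)
    rw [← hD', hD, ← hv]
    exact Dvd.dvd.mul_right (Dvd.intro _ rfl) _
  -- the choice of x
  set y := D'/A' with hy
  have hylt : D' < A'*(y+1) := Nat.lt_mul_div_succ D' hA'pos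
  have hyle : A'*y ≤ D' := Nat.mul_div_le D' A'
  set V := A'*(y+1) - D' with hV
  have hVpos : 0 < V := by omega
  have hVle : V ≤ A' := by
    have : A'*(y+1) = A'*y + A' := by ring
    omega
  have hVeq : V + D' = A'*(y+1) := by omega
  have hcopV : Nat.Coprime A' V := by
    have h1 : Nat.gcd A' V ∣ D' := by
      have h2 : Nat.gcd A' V ∣ V + D' := by
        rw [hVeq]; exact Dvd.dvd.mul_right (Nat.gcd_dvd_left A' V) _
      exact (Nat.dvd_add_right (Nat.gcd_dvd_right A' V)).1 h2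
    have h3 : Nat.gcd A' V ∣ Nat.gcd A' D' := Nat.dvd_gcd (Nat.gcd_dvd_left A' V) h1
    rw [hcop] at h3
    exact Nat.dvd_one.1 h3
  set X := 2^(900*σ+3) with hX
  have hmax : V + A'*X ≤ 2^(27000*σ) := by
    have a1 : 1 + X ≤ 2^(900*σ+4) := by
      rw [pow_succ 2 (900*σ+3), hX]
      have : 1 ≤ 2^(900*σ+3) := Nat.one_le_pow _ _ (by norm_num)
      omega
    calc V + A'*X ≤ A'*(1+X) := by rw [mul_add, mul_one]; omega
      _ ≤ 2^(25001*σ) * 2^(900*σ+4) := Nat.mul_le_mul (hA'A.trans hA.le) a1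
      _ = 2^(25001*σ+(900*σ+4)) := by rw [← pow_add]
      _ ≤ _ := Nat.pow_le_pow_right (by norm_num) (by omega)
  obtain ⟨x', hx'X, hgood⟩ := exists_good h.hP (by omega) (s := 27000*σ) (by omega) hscond A' V X
    hcopV hVpos
    (by
      rw [hX, show (8:ℕ) = 2^3 by norm_num, ← pow_add]
      exact Nat.pow_le_pow_right (by norm_num) (by omega))
    (by
      rw [hX, show (8:ℕ) = 2^3 by norm_num, ← pow_add]
      exact Nat.pow_le_pow_right (by norm_num) (by omega))
    hmax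
  set M := V + A'*x' with hM
  set x := y + 1 + x' with hx
  have hMeq : A'*x = D' + M := by
    rw [hx, hM]
    have : A'*(y+1+x') = A'*(y+1) + A'*x' := by ring
    omega
  have hMle : M ≤ (2^(3636*m))^(S.card/100000) := by
    have h1 : M ≤ 2^(27000*σ) := by
      refine le_trans ?_ hmax
      have := Nat.mul_le_mul_left A' hx'X.le
      omega
    refine h1.trans ?_
    rw [← pow_mul]
    apply Nat.pow_le_pow_right (by norm_num)
    have h2 : 27000*K ≤ S.card/100000 := by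
      rw [Nat.le_div_iff_mul_le (by norm_num)]
      have := h.hn
      omega
    calc 27000*σ = 3636*m*(27000*K) := by rw [hσ]; ring
      _ ≤ _ := Nat.mul_le_mul_left _ h2
  obtain ⟨T, hT, w, hw, hmod⟩ := cover (by omega) p S hgood hMle
    (fun q hq a1 a2 a3 => h.hnb S (Or.inr hScard) q hq a1 a2 a3) 0
  set s := (∑ i, ∏ j ∈ T i, p j) + w with hs
  obtain ⟨z, hz⟩ := (Nat.modEq_zero_iff_dvd).1 hmod
  have hspos : 0 < s := by
    have h0 : 0 < 80000*m := by omega
    have : 0 < ∑ i, ∏ j ∈ T i, p j := by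
      apply Finset.sum_pos
      · intro i _
        exact Finset.prod_pos (fun j _ => h.ppos j)
      · exact ⟨⟨0, h0⟩, Finset.mem_univ _⟩
    omega
  have hzpos : 0 < z := by
    rcases Nat.eq_zero_or_pos z with h0 | h0
    · rw [h0, mul_zero] at hz; omega
    · exact h0
  have hxpos : 0 < x := lt_of_lt_of_le (Nat.succ_pos y) (Nat.le_add_right _ _)
  have heq : (A:ℚ)/D = 1/(x:ℚ) + ((s:ℕ):ℚ)/D'/((x*z : ℕ):ℚ) := by
    have e1 : (A:ℚ)/D = (A':ℚ)/D' := by
      rw [hA', hD']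
      push_cast
      have : (g:ℚ) ≠ 0 := by exact_mod_cast hgpos.ne'
      have : (D':ℚ) ≠ 0 := by exact_mod_cast hD'pos.ne'
      field_simp
    rw [e1]
    have hD0 : (D':ℚ) ≠ 0 := by exact_mod_cast hD'pos.ne'
    have hx0 : (x:ℚ) ≠ 0 := by exact_mod_cast hxpos.ne'
    have hz0 : (z:ℚ) ≠ 0 := by exact_mod_cast hzpos.ne'
    have e2 : (A':ℚ)*x = D' + M := by exact_mod_cast hMeq
    have e3 : (s:ℚ) = M*z := by exact_mod_cast hz
    have e4 : (A':ℚ)/D' = (A'*x)/(D'*x) := by field_simp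
    rw [e4, e2, e3]
    push_cast
    field_simp
  rw [heq]
  apply Rep.add (Rep.unit _ hxpos)
  apply Rep.div _ _ (Nat.mul_pos hxpos hzpos)
  exact rep_cover p T hw hD'pos hdvd2 (fun i => hdvd1 _ (hT i))

/-- everything together -/
theorem Env.main (h : Env m K n P S0 p) {a b : ℕ} (ha : 1 ≤ a) (hab : a < b) (hb : b < 2^K) :
    Rep ((a:ℚ)/b) (2*m+1 + 2000060000*(1 + (80000*m + 22000*m)) + (1 + (80000*m + 22000*m))) := by
  have hsge := h.sge
  have hm := h.hm
  have hKs := h.Ks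
  have hKge := h.Kge
  set c := 1 + (80000*m + 22000*m) with hc
  set σ := 3636*m*K with hσ
  set H := 2^(σ - 909*m - 2) with hH
  have hHpos : 1 ≤ H := Nat.one_le_pow _ _ (by norm_num)
  obtain ⟨A1, B, r1, hA1, hA1b, hB, heq1, hrep1, hor⟩ := phase1 a b H ha hab hHpos (2*m)
  have hbpos : 0 < b := by omega
  have hσ2m : σ ≤ 2^(2*m) := by
    have h1 := h.hn2
    have h2 := h.hn
    have h3 := h.hm2
    have h4 : 3636*m*K ≤ (3000*m) * (2*K) := by nlinarith
    have h5 : (3000*m)*(2*K) ≤ 2^m * 2^m := Nat.mul_le_mul h3 (by omega)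
    rw [two_mul, pow_add]
    omega
  have hfin : H*A1 ≤ b*B ∧ B ≤ H^2 := by
    rcases hor with h1 | ⟨h1, h2⟩
    · exact h1
    · exfalso
      have h3 : A1*2^(2^(2*m)) < H*A1 := lt_of_le_of_lt h2 h1
      rw [mul_comm H] at h3
      have h4 := Nat.lt_of_mul_lt_mul_left h3
      have h5 : H ≤ 2^(2^(2*m)) := Nat.pow_le_pow_right (by norm_num) (by omega)
      omega
  obtain ⟨hHA1, hBH⟩ := hfin
  set J := b*B with hJ
  have hJpos : 0 < J := Nat.mul_pos hbpos hB
  set v1 := 22000*m + 25001*σ with hv1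
  set N := ∏ i, p i with hN
  have hNpos : 0 < N := Finset.prod_pos (fun i _ => h.ppos i)
  set D := 2^v1 * N * J with hD
  have hDpos : 0 < D := by positivity
  set A0 := 2^v1 * N * A1 with hA0
  have hNle : N ≤ 2^(1000000000*σ) := by
    calc N ≤ ∏ i : Fin n, 2^(909*m) := Finset.prod_le_prod' (fun i _ => h.ple i)
      _ = (2^(909*m))^n := by simp
      _ = 2^(1000000000*σ) := by rw [← pow_mul, h.hn, hσ]; congr 1; ring
  have hA0le : A0 ≤ 2^(1000025003*σ) := by
    calc A0 ≤ 2^v1 * 2^(1000000000*σ) * 2^K :=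
          Nat.mul_le_mul (Nat.mul_le_mul_left _ hNle) (hA1b.le.trans hb.le)
      _ = 2^(v1 + 1000000000*σ + K) := by rw [← pow_add, ← pow_add]
      _ ≤ _ := Nat.pow_le_pow_right (by norm_num) (by omega)
  have hJle : J ≤ 2^(3*σ) := by
    calc J ≤ 2^K * H^2 := Nat.mul_le_mul hb.le hBH
      _ = 2^(K + (σ-909*m-2)*2) := by rw [hH, ← pow_mul, ← pow_add]
      _ ≤ _ := Nat.pow_le_pow_right (by norm_num) (by omega)
  have hfrac : (A1:ℚ)/((b*B : ℕ):ℚ) = (A0:ℚ)/D := by
    have h1 : (J:ℚ) ≠ 0 := by exact_mod_cast hJpos.ne'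
    have h2 : (N:ℚ) ≠ 0 := by exact_mod_cast hNpos.ne'
    rw [← hJ, hA0, hD]
    push_cast
    field_simp
  -- iteration
  have hiter : ∀ j : ℕ, ∃ (A : ℕ) (r : ℚ), (a:ℚ)/b = r + (A:ℚ)/D ∧ Rep r (2*m+1 + j*c) ∧
      H*A ≤ D ∧ (A < 2^(25001*σ) ∨ A*2^((σ/2)*j) ≤ A0) := by
    intro j
    induction j with
    | zero =>
      refine ⟨A0, r1, ?_, hrep1.mono (by omega), ?_, Or.inr (by simp)⟩
      · rw [heq1, hfrac]
      · rw [hA0, hD]
        calc H*(2^v1*N*A1) = 2^v1*N*(H*A1) := by ring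
          _ ≤ _ := Nat.mul_le_mul_left _ hHA1
    | succ j ih =>
      obtain ⟨A, r, heq, hrep, hHA, hor⟩ := ih
      by_cases hsmall : A < 2^(25001*σ)
      · exact ⟨A, r, heq, hrep.mono (by rw [add_mul]; omega), hHA, Or.inl hsmall⟩
      · have hbig := hor.resolve_left hsmall
        push Not at hsmall
        have hJlt : J < H*A := by
          calc J ≤ 2^(3*σ) := hJle
            _ < 2^(25001*σ) := Nat.pow_lt_pow_right (by norm_num) (by omega)
            _ ≤ A := hsmall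
            _ ≤ H*A := Nat.le_mul_of_pos_left _ hHpos
        obtain ⟨A2, r2, heq2, hrep2, hle2⟩ := phase2_step h (J := J) (v1 := v1) hD hDpos (by omega)
          hsmall hHA hJlt
        refine ⟨A2, r + r2, ?_, ?_, ?_, Or.inr ?_⟩
        · rw [heq, heq2]; ring
        · have := hrep.add hrep2
          rw [← hc] at this
          refine this.mono ?_
          rw [add_mul]; omega
        · refine le_trans (Nat.mul_le_mul_left H ?_) hHA
          exact (Nat.le_mul_of_pos_right A2 (by positivity)).trans hle2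
        · calc A2*2^((σ/2)*(j+1)) = (A2*2^(σ/2)) * 2^((σ/2)*j) := by
                rw [mul_add, mul_one, pow_add]; ring
            _ ≤ A * 2^((σ/2)*j) := Nat.mul_le_mul_right _ hle2
            _ ≤ A0 := hbig
  obtain ⟨A, r, heq, hrep, hHA, hor⟩ := hiter 2000060000
  have hsmall : A < 2^(25001*σ) := by
    rcases hor with h1 | h1
    · exact h1
    · by_contra hcon
      push Not at hcon
      have hApos : 1 ≤ A := le_trans (Nat.one_le_pow _ _ (by norm_num)) hcon
      have h2 : 2^((σ/2)*2000060000) ≤ 2^(1000025003*σ) :=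
        ((Nat.le_mul_of_pos_left _ hApos).trans h1).trans hA0le
      have h3 := (Nat.pow_le_pow_iff_right (by norm_num)).1 h2
      have h4 : 2*(σ/2) = σ := by
        rw [hσ, show 3636*m*K = 2*(1818*m*K) by ring, Nat.mul_div_cancel_left _ (by norm_num)]
      omega
  rcases Nat.eq_zero_or_pos A with h0 | hApos
  · rw [heq, h0, Nat.cast_zero, zero_div, add_zero]
    exact hrep.mono (by omega)
  · rw [heq]
    have := hrep.add (phase3 h (J := J) (v1 := v1) hD hDpos rfl hsmall hApos)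
    rw [← hc] at this
    exact this.mono (by omega)

end

end Crest.Agent.H6.Eg
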