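import Mathlib

set_option autoImplicit false

namespace Crest.Agent.H6.Eg

open Finset ComplexConjugate

/-- the standard additive character mod `q` -/
noncomputable abbrev psi (q : ℕ) [NeZero q] : AddChar (ZMod q) ℂ := ZMod.stdAddChar

lemma norm_psi (q : ℕ) [NeZero q] (x : ZMod q) : ‖psi q x‖ = 1 := by
  rw [psi, ZMod.stdAddChar_apply]
  exact Circle.norm_coe _

lemma conj_psi (q : ℕ) [NeZero q] (x : ZMod q) : conj (psi q x) = psi q (-x) := by
  rw [psi, ZMod.stdAddChar_apply, ZMod.stdAddChar_apply, AddChar.map_neg_eq_inv, Circle.coe_inv_eq_conj]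

/-- Plancherel -/
lemma plancherel {q : ℕ} [NeZero q] {ι : Type*} (s : Finset ι) (x : ι → ZMod q)
    (hx : Set.InjOn x (s : Set ι)) (c : ι → ℂ) :
    ∑ h : ZMod q, ‖∑ i ∈ s, c i * psi q (h * x i)‖^2 = q * ∑ i ∈ s, ‖c i‖^2 := by
  classical
  have key : ∑ h : ZMod q, (((‖∑ i ∈ s, c i * psi q (h * x i)‖^2 : ℝ)) : ℂ)
      = q * ∑ i ∈ s, ((‖c i‖^2 : ℝ) : ℂ) := by
    have h1 : ∀ h : ZMod q, (((‖∑ i ∈ s, c i * psi q (h * x i)‖^2 : ℝ)) : ℂ)
        = ∑ i ∈ s, ∑ j ∈ s, c i * conj (c j) * psi q (h * (x i - x j)) := by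
      intro h
      rw [Complex.ofReal_pow, ← Complex.mul_conj', map_sum, Finset.sum_mul_sum]
      apply Finset.sum_congr rfl; intro i _
      apply Finset.sum_congr rfl; intro j _
      rw [map_mul (starRingEnd ℂ), conj_psi]
      have : psi q (h * (x i - x j)) = psi q (h * x i) * psi q (-(h * x j)) := by
        rw [← AddChar.map_add_eq_mul]; congr 1; ring
      rw [this]; ring
    rw [Finset.sum_congr rfl (fun h _ => h1 h), Finset.sum_comm]
    simp_rw [Finset.sum_comm (s := (univ : Finset (ZMod q))) (t := s), ← Finset.mul_sum]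
    rw [Finset.mul_sum]
    apply Finset.sum_congr rfl; intro i hi
    rw [Finset.sum_eq_single i]
    · rw [AddChar.sum_mulShift _ (ZMod.isPrimitive_stdAddChar q)]
      simp only [sub_self, if_true, ZMod.card]
      rw [Complex.mul_conj', Complex.ofReal_pow]
      ring
    · intro j hj hji
      rw [AddChar.sum_mulShift _ (ZMod.isPrimitive_stdAddChar q), if_neg]
      · simp
      · intro h0
        exact hji (hx hj hi (sub_eq_zero.1 h0).symm)
    · intro h0; exact absurd hi h0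
  have := congrArg Complex.re key
  rw [← Complex.ofReal_sum, ← Complex.ofReal_sum, ← Complex.ofReal_natCast, ← Complex.ofReal_mul,
    Complex.ofReal_re, Complex.ofReal_re] at this
  exact this

/-- `χ a⁻¹` is the conjugate for units -/
lemma chi_inv_unit {q : ℕ} [NeZero q] (χ : DirichletCharacter ℂ q) (a : (ZMod q)ˣ) :
    χ ((a⁻¹ : (ZMod q)ˣ) : ZMod q) = conj (χ (a : ZMod q)) := by
  have h := MulChar.star_apply' χ (a : ZMod q)
  rw [MulChar.inv_apply, Ring.inverse_unit] at h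
  exact h.symm

lemma chi_orth {q : ℕ} [NeZero q] (a : (ZMod q)ˣ) (b : ZMod q) :
    ∑ χ : DirichletCharacter ℂ q, conj (χ (a : ZMod q)) * χ b
      = if (a : ZMod q) = b then (q.totient : ℂ) else 0 := by
  rw [← DirichletCharacter.sum_char_inv_mul_char_eq ℂ a.isUnit b]
  apply Finset.sum_congr rfl; intro χ _
  rw [← chi_inv_unit]
  congr 2
  exact (ZMod.inv_coe_unit a).symm

/-- the spectral identity -/
lemma spectral_id {q : ℕ} [NeZero q] (g : ZMod q → ℝ) {p : ZMod q} (hp : IsUnit p) :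
    ((q.totient : ℝ) : ℂ) * ((∑ a : (ZMod q)ˣ, g a * g (p * a) : ℝ) : ℂ)
      = ∑ χ : DirichletCharacter ℂ q, ((‖∑ a : (ZMod q)ˣ, (g a : ℂ) * χ a‖^2 : ℝ) : ℂ) * χ p := by
  classical
  have h1 : ∀ χ : DirichletCharacter ℂ q,
      ((‖∑ a : (ZMod q)ˣ, (g a : ℂ) * χ a‖^2 : ℝ) : ℂ) * χ p
      = ∑ a : (ZMod q)ˣ, ∑ b : (ZMod q)ˣ, (g a : ℂ) * g b * (conj (χ b) * χ (p * a)) := by
    intro χ
    rw [Complex.ofReal_pow, ← Complex.mul_conj', map_sum, Finset.sum_mul_sum, Finset.sum_mul]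
    apply Finset.sum_congr rfl; intro a _
    rw [Finset.sum_mul]
    apply Finset.sum_congr rfl; intro b _
    rw [map_mul, map_mul, Complex.conj_ofReal]
    ring
  rw [Finset.sum_congr rfl (fun χ _ => h1 χ), Finset.sum_comm]
  rw [Complex.ofReal_sum, Finset.mul_sum]
  apply Finset.sum_congr rfl; intro a _
  rw [Finset.sum_comm]
  simp_rw [← Finset.mul_sum, chi_orth]
  obtain ⟨u, rfl⟩ := hp
  rw [Finset.sum_eq_single (u * a)]
  · rw [if_pos (by push_cast; rfl)]
    push_cast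
    ring
  · intro b _ hb
    rw [if_neg, mul_zero]
    intro h
    exact hb (Units.ext (by rw [h]; push_cast; rfl))
  · intro h; exact absurd (Finset.mem_univ _) h

lemma parseval_char {q : ℕ} [NeZero q] (g : ZMod q → ℝ) :
    ∑ χ : DirichletCharacter ℂ q, ‖∑ a : (ZMod q)ˣ, (g a : ℂ) * χ a‖^2
      = q.totient * ∑ a : (ZMod q)ˣ, (g a)^2 := by
  have h := spectral_id g (p := 1) isUnit_one
  simp only [one_mul, map_one, mul_one] at h
  rw [← Complex.ofReal_sum, ← Complex.ofReal_mul, Complex.ofReal_inj] at h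
  rw [← h]
  congr 1
  apply Finset.sum_congr rfl; intro a _
  ring

/-- (I1), the spectral inequality -/
lemma spectral {q : ℕ} [NeZero q] (P : Finset ℕ) (hP : ∀ p ∈ P, Nat.Coprime p q)
    (X0 : Finset (DirichletCharacter ℂ q)) (η : ℝ)
    (hη : ∀ χ, χ ∉ X0 → ‖∑ p ∈ P, χ (p : ZMod q)‖ ≤ η * P.card) (hη0 : 0 ≤ η)
    (g : ZMod q → ℝ) (hg : ∀ a, 0 ≤ g a) :
    ∑ p ∈ P, ∑ a : (ZMod q)ˣ, g a * g ((p : ZMod q) * a) ≤
      P.card * ((X0.card / q.totient) * (∑ a : (ZMod q)ˣ, g a)^2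
        + η * ∑ a : (ZMod q)ˣ, (g a)^2) := by
  classical
  have hφ : (0:ℝ) < q.totient := by
    exact_mod_cast Nat.totient_pos.2 (Nat.pos_of_ne_zero (NeZero.ne q))
  set N : DirichletCharacter ℂ q → ℝ := fun χ => ‖∑ a : (ZMod q)ˣ, (g a : ℂ) * χ a‖^2 with hN
  have hN0 : ∀ χ, 0 ≤ N χ := fun χ => by simp only [hN]; positivity
  -- identity
  have h1 : ((q.totient * ∑ p ∈ P, ∑ a : (ZMod q)ˣ, g a * g ((p : ZMod q) * a) : ℝ) : ℂ)
      = ∑ χ : DirichletCharacter ℂ q, ((N χ : ℝ) : ℂ) * ∑ p ∈ P, χ (p : ZMod q) := by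
    rw [Complex.ofReal_mul, Complex.ofReal_sum, Finset.mul_sum]
    simp_rw [Finset.mul_sum]
    rw [Finset.sum_comm]
    apply Finset.sum_congr rfl; intro p hp
    exact spectral_id g ((ZMod.isUnit_iff_coprime p q).2 (hP p hp))
  have h2 : q.totient * ∑ p ∈ P, ∑ a : (ZMod q)ˣ, g a * g ((p : ZMod q) * a)
      ≤ ∑ χ : DirichletCharacter ℂ q, N χ * ‖∑ p ∈ P, χ (p : ZMod q)‖ := by
    calc _ ≤ |q.totient * ∑ p ∈ P, ∑ a : (ZMod q)ˣ, g a * g ((p : ZMod q) * a)| := le_abs_self _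
      _ = ‖((q.totient * ∑ p ∈ P, ∑ a : (ZMod q)ˣ, g a * g ((p : ZMod q) * a) : ℝ) : ℂ)‖ := by
          rw [Complex.norm_real]; rfl
      _ ≤ _ := by
          rw [h1]
          refine (norm_sum_le _ _).trans (le_of_eq ?_)
          apply Finset.sum_congr rfl; intro χ _
          rw [norm_mul, Complex.norm_real, Real.norm_of_nonneg (hN0 χ)]
  have h3 : ∀ χ : DirichletCharacter ℂ q, N χ * ‖∑ p ∈ P, χ (p : ZMod q)‖ ≤
      (if χ ∈ X0 then P.card * (∑ a : (ZMod q)ˣ, g a)^2 else 0) + η * P.card * N χ := by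
    intro χ
    split_ifs with hχ
    · have h4 : N χ ≤ (∑ a : (ZMod q)ˣ, g a)^2 := by
        simp only [hN]
        apply pow_le_pow_left₀ (norm_nonneg _)
        refine (norm_sum_le _ _).trans (Finset.sum_le_sum ?_)
        intro a _
        rw [norm_mul, Complex.norm_real, Real.norm_of_nonneg (hg _), DirichletCharacter.unit_norm_eq_one,
          mul_one]
      have h5 : ‖∑ p ∈ P, χ (p : ZMod q)‖ ≤ P.card := by
        refine (norm_sum_le _ _).trans ?_
        refine (Finset.sum_le_card_nsmul _ _ 1 (fun p _ => DirichletCharacter.norm_le_one χ _)).trans ?_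
        simp
      have h6 : 0 ≤ η * P.card * N χ := by have := hN0 χ; positivity
      have h7 : N χ * ‖∑ p ∈ P, χ (p : ZMod q)‖ ≤ (∑ a : (ZMod q)ˣ, g a)^2 * P.card :=
        mul_le_mul h4 h5 (norm_nonneg _) (by positivity)
      linarith
    · have := mul_le_mul_of_nonneg_left (hη χ hχ) (hN0 χ)
      linarith
  have h8 : ∑ χ : DirichletCharacter ℂ q, ((if χ ∈ X0 then P.card * (∑ a : (ZMod q)ˣ, g a)^2 else 0)
      + η * P.card * N χ) = X0.card * (P.card * (∑ a : (ZMod q)ˣ, g a)^2) +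
        η * P.card * (q.totient * ∑ a : (ZMod q)ˣ, (g a)^2) := by
    rw [Finset.sum_add_distrib, ← Finset.mul_sum, ← parseval_char g, Finset.sum_ite_mem,
      Finset.univ_inter, Finset.sum_const, nsmul_eq_mul]
  have h9 := h2.trans ((Finset.sum_le_sum (fun χ _ => h3 χ)).trans (le_of_eq h8))
  have h10 : P.card * ((X0.card / q.totient) * (∑ a : (ZMod q)ˣ, g a)^2
        + η * ∑ a : (ZMod q)ˣ, (g a)^2) =
      (X0.card * (P.card * (∑ a : (ZMod q)ˣ, g a)^2) +
        η * P.card * (q.totient * ∑ a : (ZMod q)ˣ, (g a)^2)) / q.totient := by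
    field_simp
  rw [h10, le_div_iff₀ hφ]
  linarith

/-- the coefficients of the additive character on the units -/
noncomputable def CC (q : ℕ) [NeZero q] (χ : DirichletCharacter ℂ q) : ℂ :=
  ∑ b : (ZMod q)ˣ, conj (χ b) * psi q b

lemma psi_expand {q : ℕ} [NeZero q] (a : (ZMod q)ˣ) :
    (q.totient : ℂ) * psi q a = ∑ χ : DirichletCharacter ℂ q, CC q χ * χ a := by
  classical
  unfold CC
  simp_rw [Finset.sum_mul]
  rw [Finset.sum_comm]
  have : ∀ b : (ZMod q)ˣ, ∑ χ : DirichletCharacter ℂ q, conj (χ b) * psi q b * χ a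
      = psi q b * (if (b : ZMod q) = a then (q.totient : ℂ) else 0) := by
    intro b
    rw [← chi_orth, Finset.mul_sum]
    apply Finset.sum_congr rfl; intro χ _
    ring
  simp_rw [this]
  rw [Finset.sum_eq_single a]
  · simp; ring
  · intro b _ hb
    rw [if_neg, mul_zero]
    exact fun h => hb (Units.ext h)
  · intro h; exact absurd (Finset.mem_univ _) h

lemma norm_CC_le {q : ℕ} [NeZero q] (χ : DirichletCharacter ℂ q) : ‖CC q χ‖^2 ≤ q := by
  classical
  have hφ : (0:ℝ) < q.totient := by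
    exact_mod_cast Nat.totient_pos.2 (Nat.pos_of_ne_zero (NeZero.ne q))
  -- for a unit h, the transform at h has the same norm
  have h1 : ∀ h : (ZMod q)ˣ, ‖∑ b : (ZMod q)ˣ, conj (χ b) * psi q ((h : ZMod q) * b)‖ = ‖CC q χ‖ := by
    intro h
    have : ∑ b : (ZMod q)ˣ, conj (χ b) * psi q ((h : ZMod q) * b) = χ h * CC q χ := by
      have e0 : CC q χ = ∑ b : (ZMod q)ˣ, conj (χ ((h * b : (ZMod q)ˣ) : ZMod q)) *
          psi q ((h * b : (ZMod q)ˣ) : ZMod q) := by
        unfold CC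
        exact (Equiv.sum_comp (Equiv.mulLeft h)
          (fun b : (ZMod q)ˣ => conj (χ (b : ZMod q)) * psi q (b : ZMod q))).symm
      rw [e0, Finset.mul_sum]
      apply Finset.sum_congr rfl; intro b _
      have e : χ (h : ZMod q) * conj (χ (h : ZMod q)) = 1 := by
        rw [Complex.mul_conj', DirichletCharacter.unit_norm_eq_one]; norm_num
      rw [Units.val_mul, map_mul χ, map_mul (starRingEnd ℂ)]
      calc conj (χ b) * psi q ((h:ZMod q) * b)
          = (χ h * conj (χ h)) * conj (χ b) * psi q ((h:ZMod q) * b) := by rw [e, one_mul]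
        _ = _ := by ring
    rw [this, norm_mul, DirichletCharacter.unit_norm_eq_one, one_mul]
  have hinj : Set.InjOn (fun b : (ZMod q)ˣ => (b : ZMod q)) ((univ : Finset (ZMod q)ˣ) : Set _) :=
    fun a _ b _ h => Units.ext h
  have h2 := plancherel (univ : Finset (ZMod q)ˣ) (fun b => (b : ZMod q)) hinj (fun b => conj (χ b))
  have h3 : ∑ b : (ZMod q)ˣ, ‖conj (χ (b : ZMod q))‖^2 = (q.totient : ℝ) := by
    simp only [RCLike.norm_conj, DirichletCharacter.unit_norm_eq_one, one_pow, Finset.sum_const,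
      Finset.card_univ, nsmul_eq_mul, mul_one, ZMod.card_units_eq_totient]
  rw [h3] at h2
  have h4 : ∑ h : (ZMod q)ˣ, ‖CC q χ‖^2 ≤ (q:ℝ) * q.totient := by
    rw [← h2]
    have h5 : ∑ h : (ZMod q)ˣ, ‖CC q χ‖^2
        = ∑ h ∈ (univ : Finset (ZMod q)ˣ).map ⟨fun b : (ZMod q)ˣ => (b : ZMod q),
            fun a b h => Units.ext h⟩,
          ‖∑ b : (ZMod q)ˣ, conj (χ b) * psi q (h * b)‖^2 := by
      rw [Finset.sum_map]
      apply Finset.sum_congr rfl; intro h _
      exact congrArg (fun z : ℝ => z^2) (h1 h).symm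
    rw [h5]
    apply Finset.sum_le_sum_of_subset_of_nonneg (Finset.subset_univ _)
    intro i _ _
    positivity
  rw [Finset.sum_const, Finset.card_univ, ZMod.card_units_eq_totient, nsmul_eq_mul] at h4
  nlinarith

end Crest.Agent.H6.Eg
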