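import Crest.Agent.H6.EgRec

set_option autoImplicit false

namespace Crest.Agent.H6.Eg

open Finset ComplexConjugate

section
variable {ι : Type*} [Fintype ι] [DecidableEq ι] {P : Finset ℕ}

/-- failure of the sup bound -/
def Bad (q : ℕ) [NeZero q] (t : ℕ) (S : Finset ι) (p : ι → ℕ) : Prop :=
  ∃ a : (ZMod q)ˣ, 1 < ‖fz q S p a‖^t * (q:ℝ)^3

open Classical in
/-- large moduli: few bad tuples -/
lemma large_count {q : ℕ} [NeZero q] (hP : ∀ p ∈ P, Nat.Coprime p q)
    (hprime : ∀ p ∈ P, p.Prime) {G : ℕ} (hG : ∀ p ∈ P, p ≤ G) (hPpos : 0 < P.card)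
    (X0 : Finset (DirichletCharacter ℂ q)) {L m i : ℕ} (hL : 1 ≤ L) (hm : 3 ≤ m)
    (hη : ∀ χ, χ ∉ X0 → ‖∑ p ∈ P, χ (p : ZMod q)‖ ≤ (1/8^m) * P.card)
    (hq : G^(4*i) < q)
    (hρ : 4^m * ((X0.card : ℝ) / q.totient) * (2 * 4^i * (q / 16^i)) ≤ 1/2^m)
    (S : Finset ι) (hS : 4*i ≤ S.card) :
    (((Om ι P).filter (fun p => Set.InjOn p (S : Set ι) ∧ Bad q (2*(2*L*m)) S p)).card : ℝ) ≤
      (Om ι P).card * ((q:ℝ)^4 * ((4/2^m)^(S.card - 4*i) + 1/4^(i*(2*L*m)))) := by
  have hqpos : (0:ℝ) < q := by exact_mod_cast Nat.pos_of_ne_zero (NeZero.ne q)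
  have h2m : (8:ℝ) ≤ 2^m := by
    calc (8:ℝ) = 2^3 := by norm_num
      _ ≤ 2^m := pow_le_pow_right₀ (by norm_num) hm
  obtain ⟨l, hl⟩ : ∃ l, l + 2 = 2*L*m := ⟨2*L*m - 2, by
    have : 2 ≤ 2*L*m := by nlinarith
    omega⟩
  set K : ℝ := (X0.card : ℝ) / q.totient with hK
  have hK0 : 0 ≤ K := by positivity
  set B : ℝ := 4^m * K * (2 * (((1/2^i:ℝ))^l)^2 * (q/16^i)^2) with hB
  set μ : ℝ := 4/2^m with hμ
  have hμ0 : 0 ≤ μ := by positivity
  have hμ1 : μ ≤ 1/2 := by
    rw [hμ, div_le_iff₀ (by positivity)]; linarith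
  have hB0 : 0 ≤ B := by positivity
  have hBle : B ≤ 1/2^m * (q * (1/4^(i*(2*L*m)))) := by
    have e : B = (4^m * K * (2 * 4^i * (q / 16^i))) * (q * ((1/2^i)^l)^2 * (1/4^i) * (1/16^i)) := by
      rw [hB]; field_simp
    rw [e]
    apply mul_le_mul hρ ?_ (by positivity) (by positivity)
    have e2 : ((1/2^i:ℝ)^l)^2 * (1/4^i) * (1/16^i) ≤ 1/4^(i*(2*L*m)) := by
      rw [← hl]
      have e3 : (1:ℝ)/4^(i*(l+2)) = ((1/2^i:ℝ)^l)^2 * (1/16^i) := by
        rw [mul_add, pow_add]
        have a1 : (4:ℝ)^(i*l) = ((2^i)^l)^2 := by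
          rw [← pow_mul, ← pow_mul, show (4:ℝ) = 2^2 by norm_num, ← pow_mul]; congr 1; ring
        have a2 : (4:ℝ)^(i*2) = 16^i := by
          rw [mul_comm, pow_mul]; norm_num
        rw [a1, a2, one_div_pow, one_div_pow]
        field_simp
      rw [e3]
      have a3 : (1:ℝ)/4^i ≤ 1 := by
        rw [div_le_one (by positivity)]; exact one_le_pow₀ (by norm_num)
      have a4 : 0 ≤ ((1/2^i:ℝ)^l)^2 * (1/16^i) := by positivity
      nlinarith
    calc q * ((1/2^i)^l)^2 * (1/4^i) * (1/16^i) = q * (((1/2^i:ℝ)^l)^2 * (1/4^i) * (1/16^i)) := by ring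
      _ ≤ _ := mul_le_mul_of_nonneg_left e2 hqpos.le
  have hrec := recursion (P := P) (fun S p => FF q (2*(2*L*m)) S p) (fun _ _ => FF_nonneg _ _ _)
    (j := 4*i) (Q := q) (μ := μ) (B := B) hqpos.le hμ0 hμ1 hB0 (fun _ _ => FF_le_q _ _ _)
    (by
      intro S i' p hp hi' hjS hinj
      have hp' : ∀ k, p k ∈ P := fun k => (Fintype.mem_piFinset.1 hp) k
      have hD : FF q 2 S p ≤ q / 16^i := by
        have := FF_two_le (p := p) (G := G) hq S hjS (fun k _ => hprime _ (hp' k))
          (fun k _ => hG _ (hp' k)) (fun k _ => (ZMod.isUnit_iff_coprime _ q).2 (hP _ (hp' k))) hinj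
        rw [pow_mul] at this
        norm_num at this
        exact this
      refine (step hP X0 (1/8^m) hη (by positivity) hL hl hi' p hD
        (τ := 1/2^i) (by positivity)).trans ?_
      apply mul_le_mul_of_nonneg_left _ (by positivity)
      rw [← hK, ← hB]
      have hF0 := FF_nonneg (q := q) (2*(2*L*m)) S p
      have hc : 2/2^m + 4^m * (1/8^m) + 4^m * K * (2 / (1/2^i)^2 * (q/16^i)) ≤ μ := by
        have e1 : (4:ℝ)^m * (1/8^m) = 1/2^m := by
          rw [show (8:ℝ) = 4*2 by norm_num, mul_pow]; field_simp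
        have e2 : (2:ℝ) / (1/2^i)^2 = 2 * 4^i := by
          have : (4:ℝ)^i = (2^i)^2 := by
            rw [← pow_mul, show (4:ℝ) = 2^2 by norm_num, ← pow_mul]; congr 1; ring
          rw [this]; field_simp
        rw [e1, e2]
        have : μ = 2/2^m + 1/2^m + 1/2^m := by rw [hμ]; ring
        rw [this]
        linarith
      have := mul_le_mul_of_nonneg_right hc hF0
      linarith) hPpos S hS
  -- Markov
  have h1 : ∀ p ∈ (Om ι P).filter (fun p => Set.InjOn p (S : Set ι) ∧ Bad q (2*(2*L*m)) S p),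
      (1:ℝ) ≤ (q:ℝ)^3 * (if Set.InjOn p (S : Set ι) then FF q (2*(2*L*m)) S p else 0) := by
    intro p hp
    obtain ⟨_, hinj, a, ha⟩ := Finset.mem_filter.1 hp
    rw [if_pos hinj]
    have : ‖fz q S p a‖^(2*(2*L*m)) ≤ FF q (2*(2*L*m)) S p := by
      unfold FF
      exact Finset.single_le_sum (f := fun a : (ZMod q)ˣ => ‖fz q S p a‖^(2*(2*L*m)))
        (fun _ _ => by positivity) (Finset.mem_univ a)
    have h3 := mul_le_mul_of_nonneg_left this (show (0:ℝ) ≤ (q:ℝ)^3 by positivity)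
    linarith
  have h2 : (((Om ι P).filter (fun p => Set.InjOn p (S : Set ι) ∧ Bad q (2*(2*L*m)) S p)).card : ℝ)
      ≤ (q:ℝ)^3 * ∑ p ∈ Om ι P, (if Set.InjOn p (S : Set ι) then FF q (2*(2*L*m)) S p else 0) := by
    rw [Finset.mul_sum]
    calc (((Om ι P).filter (fun p => Set.InjOn p (S : Set ι) ∧ Bad q (2*(2*L*m)) S p)).card : ℝ)
        = ∑ p ∈ (Om ι P).filter (fun p => Set.InjOn p (S : Set ι) ∧ Bad q (2*(2*L*m)) S p), (1:ℝ) := by
          simp
      _ ≤ ∑ p ∈ (Om ι P).filter (fun p => Set.InjOn p (S : Set ι) ∧ Bad q (2*(2*L*m)) S p),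
          (q:ℝ)^3 * (if Set.InjOn p (S : Set ι) then FF q (2*(2*L*m)) S p else 0) :=
          Finset.sum_le_sum h1
      _ ≤ _ := by
          apply Finset.sum_le_sum_of_subset_of_nonneg (Finset.filter_subset _ _)
          intro p _ _
          apply mul_nonneg (by positivity)
          split_ifs
          · exact FF_nonneg _ _ _
          · exact le_refl _
  refine h2.trans ?_
  have h3 := mul_le_mul_of_nonneg_left hrec (show (0:ℝ) ≤ (q:ℝ)^3 by positivity)
  refine h3.trans ?_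
  have h4 : 2 * B ≤ q * (1/4^(i*(2*L*m))) := by
    have : (1:ℝ)/2^m ≤ 1/2 := by
      apply one_div_le_one_div_of_le (by norm_num); linarith
    have h5 : 0 ≤ (q:ℝ) * (1/4^(i*(2*L*m))) := by positivity
    nlinarith
  have h5 : (0:ℝ) ≤ (Om ι P).card := by positivity
  calc (q:ℝ)^3 * ((Om ι P).card * (q * μ^(S.card - 4*i) + 2 * B))
      ≤ (q:ℝ)^3 * ((Om ι P).card * (q * μ^(S.card - 4*i) + q * (1/4^(i*(2*L*m))))) := by
        apply mul_le_mul_of_nonneg_left _ (by positivity)
        apply mul_le_mul_of_nonneg_left _ h5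
        linarith
    _ = _ := by ring

/-- the multiplier attached to a character -/
noncomputable def ww {q : ℕ} (χ : DirichletCharacter ℂ q) (S : Finset ι) (p : ι → ℕ) : ℂ :=
  ∏ i ∈ S, (1 + χ (p i : ZMod q))/2

omit [Fintype ι] in
lemma fz_expand {q : ℕ} [NeZero q] (S : Finset ι) (p : ι → ℕ) :
    (∀ i ∈ S, IsUnit ((p i : ZMod q))) → ∀ a : (ZMod q)ˣ,
    (q.totient : ℂ) * fz q S p a = ∑ χ : DirichletCharacter ℂ q, CC q χ * ww χ S p * χ a := by
  induction S using Finset.induction_on with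
  | empty =>
    intro _ a
    have : fz q (∅ : Finset ι) p a = psi q a := by simp [fz]
    rw [this, psi_expand]
    apply Finset.sum_congr rfl; intro χ _
    simp [ww]
  | insert i S hi ih =>
    intro hu a
    have ih' := ih (fun k hk => hu k (Finset.mem_insert_of_mem hk))
    obtain ⟨v, hv⟩ := hu i (Finset.mem_insert_self _ _)
    rw [fz_insert hi, ← hv, ← Units.val_mul]
    have : (q.totient : ℂ) * ((fz q S p a + fz q S p ((v * a : (ZMod q)ˣ) : ZMod q))/2)
      = ((q.totient : ℂ) * fz q S p a + (q.totient : ℂ) * fz q S p ((v * a : (ZMod q)ˣ) : ZMod q))/2 := by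
      ring
    rw [this, ih' a, ih' (v*a), ← Finset.sum_add_distrib, Finset.sum_div]
    apply Finset.sum_congr rfl; intro χ _
    have hw : ww χ (insert i S) p = (1 + χ (p i : ZMod q))/2 * ww χ S p := by
      unfold ww
      rw [Finset.prod_insert hi]
    rw [hw, ← hv, Units.val_mul, map_mul]
    ring

lemma sum_ww_sq {q : ℕ} [NeZero q] (χ : DirichletCharacter ℂ q) {η : ℝ}
    (hη : ‖∑ p ∈ P, χ (p : ZMod q)‖ ≤ η * P.card) (S : Finset ι) :
    ∑ p ∈ Om ι P, ‖ww χ S p‖^2 ≤ (Om ι P).card * ((1+η)/2)^S.card := by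
  set g : ℕ → ℝ := fun v => ‖(1 + χ (v : ZMod q))/2‖^2 with hg
  have h1 : ∀ v, g v ≤ (1 + (χ (v : ZMod q)).re)/2 := by
    intro v
    simp only [hg]
    rw [norm_div, Complex.norm_ofNat, div_pow]
    have h2 := DirichletCharacter.norm_le_one χ (v : ZMod q)
    have h3 : ‖χ (v : ZMod q)‖^2 ≤ 1 := by
      have := pow_le_one₀ (n := 2) (norm_nonneg _) h2
      exact this
    rw [← Complex.normSq_eq_norm_sq, Complex.normSq_apply] at *
    simp only [Complex.add_re, Complex.one_re, Complex.add_im, Complex.one_im]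
    nlinarith
  have h2 : ∑ v ∈ P, g v ≤ P.card * ((1+η)/2) := by
    refine (Finset.sum_le_sum (fun v _ => h1 v)).trans ?_
    rw [← Finset.sum_div, Finset.sum_add_distrib, ← Complex.re_sum]
    have h3 := (Complex.re_le_norm (∑ p ∈ P, χ (p : ZMod q))).trans hη
    simp only [Finset.sum_const, nsmul_eq_mul, mul_one]
    linarith
  have h3 : ∀ p : ι → ℕ, ‖ww χ S p‖^2 = ∏ i, (if i ∈ S then g (p i) else 1) := by
    intro p
    unfold ww
    rw [norm_prod, ← Finset.prod_pow, Finset.prod_ite_mem, Finset.univ_inter]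
  rw [Finset.sum_congr rfl (fun p _ => h3 p)]
  have h4 := Finset.prod_univ_sum (fun _ : ι => P) (fun i v => if i ∈ S then g v else 1)
  rw [← h4]
  calc ∏ i, ∑ v ∈ P, (if i ∈ S then g v else 1)
      ≤ ∏ i, (P.card * (if i ∈ S then (1+η)/2 else 1) : ℝ) := by
        apply Finset.prod_le_prod
        · intro i _
          apply Finset.sum_nonneg
          intro v _
          split_ifs
          · simp only [hg]; positivity
          · norm_num
        · intro i _
          by_cases hi : i ∈ S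
          · simp only [hi, if_true]; exact h2
          · simp [hi]
    _ = _ := by
        rw [Finset.prod_mul_distrib, Finset.prod_const, Finset.prod_ite_mem, Finset.univ_inter,
          Finset.prod_const, card_Om]
        push_cast
        rfl

open Classical in
/-- middle moduli: few bad tuples -/
lemma mid_count {q : ℕ} [NeZero q] (hP : ∀ p ∈ P, Nat.Coprime p q)
    (X0 : Finset (DirichletCharacter ℂ q)) {η : ℝ} (hη0 : 0 ≤ η)
    (hη : ∀ χ, χ ∉ X0 → ‖∑ p ∈ P, χ (p : ZMod q)‖ ≤ η * P.card)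
    {t : ℕ} (ht : 24 ≤ t)
    (hX : 256 * ((X0.card : ℝ) * (q / q.totient))^8 ≤ (q:ℝ)^3)
    (S : Finset ι) :
    (((Om ι P).filter (fun p => Bad q t S p)).card : ℝ) ≤
      (Om ι P).card * (4 * (q:ℝ)^3 * ((1+η)/2)^S.card) := by
  have hqpos : (0:ℝ) < q := by exact_mod_cast Nat.pos_of_ne_zero (NeZero.ne q)
  have hq1 : (1:ℝ) ≤ q := by exact_mod_cast Nat.pos_of_ne_zero (NeZero.ne q)
  have hφ : (0:ℝ) < q.totient := by
    exact_mod_cast Nat.totient_pos.2 (Nat.pos_of_ne_zero (NeZero.ne q))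
  have hφ1 : (1:ℝ) ≤ q.totient := by
    exact_mod_cast Nat.totient_pos.2 (Nat.pos_of_ne_zero (NeZero.ne q))
  have hφq : (q.totient : ℝ) ≤ q := by exact_mod_cast Nat.totient_le q
  set Z : (ι → ℕ) → ℝ := fun p => q * ∑ χ ∈ (univ.filter (fun χ : DirichletCharacter ℂ q => χ ∉ X0)),
    ‖ww χ S p‖^2 with hZ
  have hZ0 : ∀ p, 0 ≤ Z p := fun p => by simp only [hZ]; positivity
  have hcardchar : (Fintype.card (DirichletCharacter ℂ q) : ℝ) = q.totient := by
    rw [← Nat.card_eq_fintype_card, DirichletCharacter.card_eq_totient_of_hasEnoughRootsOfUnity]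
  -- sup bound
  have hsup : ∀ p ∈ Om ι P, ∀ a : (ZMod q)ˣ,
      ‖fz q S p a‖ ≤ X0.card * Real.sqrt q / q.totient + Real.sqrt (Z p) := by
    intro p hp a
    have hp' : ∀ k, p k ∈ P := fun k => (Fintype.mem_piFinset.1 hp) k
    have h1 := fz_expand S p (fun k _ => (ZMod.isUnit_iff_coprime _ q).2 (hP _ (hp' k))) a
    have hww1 : ∀ χ : DirichletCharacter ℂ q, ‖ww χ S p‖ ≤ 1 := by
      intro χ
      unfold ww
      rw [norm_prod]
      apply Finset.prod_le_one (fun _ _ => norm_nonneg _)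
      intro i _
      rw [norm_div, Complex.norm_ofNat, div_le_one (by norm_num)]
      refine (norm_add_le _ _).trans ?_
      rw [norm_one]
      have := DirichletCharacter.norm_le_one χ (p i : ZMod q)
      linarith
    have hCC : ∀ χ : DirichletCharacter ℂ q, ‖CC q χ‖ ≤ Real.sqrt q := by
      intro χ
      exact Real.le_sqrt_of_sq_le (norm_CC_le χ)
    have h2 : (q.totient : ℝ) * ‖fz q S p a‖ ≤ ∑ χ : DirichletCharacter ℂ q,
        Real.sqrt q * ‖ww χ S p‖ := by
      calc (q.totient : ℝ) * ‖fz q S p a‖ = ‖(q.totient : ℂ) * fz q S p a‖ := by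
            rw [norm_mul, Complex.norm_natCast]
        _ ≤ ∑ χ : DirichletCharacter ℂ q, ‖CC q χ * ww χ S p * χ a‖ := by
            rw [h1]; exact norm_sum_le _ _
        _ ≤ _ := by
            apply Finset.sum_le_sum; intro χ _
            rw [norm_mul, norm_mul, DirichletCharacter.unit_norm_eq_one, mul_one]
            exact mul_le_mul_of_nonneg_right (hCC χ) (norm_nonneg _)
    have h3 : ∑ χ : DirichletCharacter ℂ q, Real.sqrt q * ‖ww χ S p‖ ≤
        X0.card * Real.sqrt q + Real.sqrt q *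
          ∑ χ ∈ (univ.filter (fun χ : DirichletCharacter ℂ q => χ ∉ X0)), ‖ww χ S p‖ := by
      rw [← Finset.sum_filter_add_sum_filter_not univ (fun χ => χ ∈ X0), ← Finset.mul_sum,
        ← Finset.mul_sum]
      have e : univ.filter (fun χ : DirichletCharacter ℂ q => χ ∈ X0) = X0 := by
        ext χ; simp
      rw [e]
      have : ∑ χ ∈ X0, ‖ww χ S p‖ ≤ X0.card := by
        have := Finset.sum_le_card_nsmul X0 (fun χ => ‖ww χ S p‖) 1 (fun χ _ => hww1 χ)
        simpa using this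
      have := mul_le_mul_of_nonneg_left this (Real.sqrt_nonneg (q:ℝ))
      linarith
    have h4 : (Real.sqrt q * ∑ χ ∈ (univ.filter (fun χ : DirichletCharacter ℂ q => χ ∉ X0)),
        ‖ww χ S p‖) ≤ q.totient * Real.sqrt (Z p) := by
      have h5 : (∑ χ ∈ (univ.filter (fun χ : DirichletCharacter ℂ q => χ ∉ X0)), ‖ww χ S p‖)^2 ≤
          q.totient * ∑ χ ∈ (univ.filter (fun χ : DirichletCharacter ℂ q => χ ∉ X0)), ‖ww χ S p‖^2 := by
        refine (sq_sum_le_card_mul_sum_sq).trans ?_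
        apply mul_le_mul_of_nonneg_right _ (by positivity)
        rw [← hcardchar]
        exact_mod_cast Finset.card_le_univ _
      apply le_of_sq_le_sq _ (by positivity)
      rw [mul_pow, mul_pow, Real.sq_sqrt hqpos.le, Real.sq_sqrt (hZ0 p)]
      simp only [hZ]
      have h6 := mul_le_mul_of_nonneg_left h5 hqpos.le
      refine h6.trans ?_
      have h7 : 0 ≤ ∑ χ ∈ (univ.filter (fun χ : DirichletCharacter ℂ q => χ ∉ X0)), ‖ww χ S p‖^2 := by
        positivity
      have h8 : (q.totient : ℝ) ≤ (q.totient : ℝ)^2 := by nlinarith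
      have h9 := mul_le_mul_of_nonneg_right h8 (mul_nonneg hqpos.le h7)
      linarith
    have h10 := h2.trans h3
    rw [← mul_le_mul_iff_right₀ hφ]
    calc (q.totient : ℝ) * ‖fz q S p a‖ ≤ X0.card * Real.sqrt q + q.totient * Real.sqrt (Z p) := by
          linarith
      _ = _ := by field_simp
  -- if not 4 q Z > 1 then not bad
  have hbad : ∀ p ∈ Om ι P, Bad q t S p → 1 ≤ 4 * q * Z p := by
    intro p hp hb
    by_contra hcon
    push Not at hcon
    obtain ⟨a, ha⟩ := hb
    have hf0 := norm_nonneg (fz q S p a)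
    have hf1 := norm_fz_le_one (q := q) S p a
    set x := ‖fz q S p a‖ with hx
    set A1 : ℝ := X0.card * Real.sqrt q / q.totient with hA1
    have hA10 : 0 ≤ A1 := by positivity
    have hsq : (Real.sqrt q)^2 = q := Real.sq_sqrt hqpos.le
    have h8 : x^8 * q ≤ 1 := by
      have hs := hsup p hp a
      rcases le_total A1 (Real.sqrt (Z p)) with h | h
      · have h1 : x ≤ 2 * Real.sqrt (Z p) := by linarith
        have h2 : x^8 ≤ (2 * Real.sqrt (Z p))^8 := pow_le_pow_left₀ hf0 h1 8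
        have h3 : (2 * Real.sqrt (Z p))^8 = (4 * Z p)^4 := by
          have : (2 * Real.sqrt (Z p))^8 = (4 * (Real.sqrt (Z p))^2)^4 := by ring
          rw [this, Real.sq_sqrt (hZ0 p)]
        have h4 : 4 * Z p * q ≤ 1 := by linarith
        have h5 : 4 * Z p ≤ 1 := by nlinarith [hZ0 p]
        have h6 : (4 * Z p)^4 * q ≤ 1 := by
          have h7 : (4 * Z p)^3 ≤ 1 := pow_le_one₀ (by have := hZ0 p; positivity) h5
          have h8 : 0 ≤ 4 * Z p * q := by have := hZ0 p; positivity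
          calc (4 * Z p)^4 * q = (4 * Z p)^3 * (4 * Z p * q) := by ring
            _ ≤ 1 * 1 := mul_le_mul h7 h4 h8 (by norm_num)
            _ = 1 := by norm_num
        rw [h3] at h2
        nlinarith
      · have h1 : x ≤ 2 * A1 := by linarith
        have h2 : x^8 ≤ (2 * A1)^8 := pow_le_pow_left₀ hf0 h1 8
        have h3 : (2 * A1)^8 * q = 256 * ((X0.card : ℝ) * (q / q.totient))^8 / (q:ℝ)^3 := by
          rw [hA1]
          have : (2 * (X0.card * Real.sqrt q / q.totient))^8 = 256 * (X0.card : ℝ)^8 *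
            ((Real.sqrt q)^2)^4 / (q.totient : ℝ)^8 := by
            rw [mul_pow, div_pow, mul_pow]; ring
          rw [this, hsq]
          field_simp
        have h4 : (2 * A1)^8 * q ≤ 1 := by
          rw [h3, div_le_one (by positivity)]
          exact hX
        nlinarith
    have h24 : x^24 * (q:ℝ)^3 ≤ 1 := by
      calc x^24 * (q:ℝ)^3 = (x^8 * q)^3 := by ring
        _ ≤ 1 := pow_le_one₀ (by positivity) h8
    have ht' : x^t ≤ x^24 := pow_le_pow_of_le_one hf0 hf1 ht
    have := mul_le_mul_of_nonneg_right ht' (show (0:ℝ) ≤ (q:ℝ)^3 by positivity)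
    linarith
  -- Markov
  have h1 : (((Om ι P).filter (fun p => Bad q t S p)).card : ℝ) ≤ ∑ p ∈ Om ι P, 4 * q * Z p := by
    calc (((Om ι P).filter (fun p => Bad q t S p)).card : ℝ)
        = ∑ p ∈ (Om ι P).filter (fun p => Bad q t S p), (1:ℝ) := by simp
      _ ≤ ∑ p ∈ (Om ι P).filter (fun p => Bad q t S p), 4 * q * Z p := by
          apply Finset.sum_le_sum
          intro p hp
          obtain ⟨h1, h2⟩ := Finset.mem_filter.1 hp
          exact hbad p h1 h2
      _ ≤ _ := by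
          apply Finset.sum_le_sum_of_subset_of_nonneg (Finset.filter_subset _ _)
          intro p _ _
          have := hZ0 p
          positivity
  refine h1.trans ?_
  rw [← Finset.mul_sum]
  have h2 : ∑ p ∈ Om ι P, Z p ≤ q * (q * ((Om ι P).card * ((1+η)/2)^S.card)) := by
    simp only [hZ]
    rw [← Finset.mul_sum, Finset.sum_comm]
    apply mul_le_mul_of_nonneg_left _ hqpos.le
    refine (Finset.sum_le_card_nsmul _ _ ((Om ι P).card * ((1+η)/2)^S.card) ?_).trans ?_
    · intro χ hχ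
      exact sum_ww_sq χ (hη χ (Finset.mem_filter.1 hχ).2) S
    · rw [nsmul_eq_mul]
      apply mul_le_mul_of_nonneg_right _ (by positivity)
      refine le_trans ?_ hφq
      rw [← hcardchar]
      exact_mod_cast Finset.card_le_univ _
  have h3 := mul_le_mul_of_nonneg_left h2 (show (0:ℝ) ≤ 4 * q by positivity)
  refine h3.trans (le_of_eq ?_)
  ring

end

end Crest.Agent.H6.Eg
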