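import Crest.Agent.H6.EgExc
import Crest.Agent.H6.EgMid

set_option autoImplicit false

namespace Crest.Agent.H6.Eg

open Finset

lemma num1 (f : ℕ) (hf : 8 ≤ f) : 16*(f+1) ≤ 2^f := by
  induction f, hf using Nat.le_induction with
  | base => norm_num
  | succ f _ ih => rw [pow_succ]; omega

lemma num2 (e : ℕ) (he : 64 ≤ e) : (2*(e+1))^8 ≤ 2^e := by
  have h1 : 16*(e/8+1) ≤ 2^(e/8) := num1 _ (by omega)
  have h2 : 2*(e+1) ≤ 2^(e/8) := by omega
  calc (2*(e+1))^8 ≤ (2^(e/8))^8 := Nat.pow_le_pow_left h2 8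
    _ = 2^(8*(e/8)) := by rw [← pow_mul, mul_comm]
    _ ≤ 2^e := Nat.pow_le_pow_right (by norm_num) (by omega)

lemma num3 (i : ℕ) (hi : 7 ≤ i) : 2*i*(i+1)+1 ≤ 2^i := by
  induction i, hi using Nat.le_induction with
  | base => norm_num
  | succ i hi ih => rw [pow_succ]; nlinarith

section
variable {ι : Type*} [Fintype ι] [DecidableEq ι] {P : Finset ℕ} {m : ℕ}

open Classical in
/-- the bad event for one modulus -/
noncomputable def BB (m : ℕ) (P : Finset ℕ) (S : Finset ι) (q : ℕ) : Finset (ι → ℕ) :=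
  (Om ι P).filter (fun p => Set.InjOn p (S : Set ι) ∧ ∃ _ : NeZero q, Good m P q ∧
    2^(7272*m) < q ∧ Bad q (2*(2*20000*m)) S p)

open Classical in
lemma BB_mid (hP : PSet m P) (hm : 1 ≤ m) (S : Finset ι) (q : ℕ) :
    ((BB m P S q).card : ℝ) ≤ (Om ι P).card * (4 * (q:ℝ)^3 * ((1+1/8^m)/2)^S.card) := by
  by_cases hgood : Good m P q ∧ 2^(7272*m) < q
  · obtain ⟨hg, hq⟩ := hgood
    have : NeZero q := ⟨hg.1.ne'⟩
    set X0 := univ.filter (fun χ : DirichletCharacter ℂ q => χ.conductor ≤ 2^(909*m)) with hX0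
    have hX0card : (X0.card : ℝ) ≤ 2^(1818*m) := by
      have h1 := card_small_conductor q (2^(909*m))
      rw [← hX0, ← pow_mul] at h1
      have : ((X0.card : ℕ) : ℝ) ≤ ((2^(909*m*2) : ℕ) : ℝ) := by exact_mod_cast h1
      push_cast at this
      rw [show 1818*m = 909*m*2 by ring]
      exact this
    have hlog := div_totient_le q hg.1
    have hmid := mid_count (ι := ι) (hg.coprime hP) X0 (η := 1/8^m) (by positivity)
      (by
        intro χ hχ
        apply hg.char_bound hP
        rw [hX0, Finset.mem_filter] at hχ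
        push Not at hχ
        exact hχ (Finset.mem_univ _))
      (t := 2*(2*20000*m)) (by omega)
      (by
        set e := Nat.log 2 q with he
        have he1 : 7272*m ≤ e := by
          rw [he, Nat.le_log_iff_pow_le (by norm_num) hg.1.ne']
          exact hq.le
        have h2e : 2^e ≤ q := Nat.pow_log_le_self 2 hg.1.ne'
        have h3 : (2*(e+1))^8 ≤ q := (num2 e (by omega)).trans h2e
        have h4 : (2*((e:ℝ)+1))^8 ≤ q := by exact_mod_cast h3
        have h5 : ((2:ℝ)^(1818*m))^8 ≤ (q:ℝ)^2 := by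
          have h6 : ((2:ℝ)^(7272*m)) ≤ q := by exact_mod_cast hq.le
          calc ((2:ℝ)^(1818*m))^8 = ((2:ℝ)^(7272*m))^2 := by
                rw [← pow_mul, ← pow_mul]; congr 1; ring
            _ ≤ _ := pow_le_pow_left₀ (by positivity) h6 2
        have hq0 : (0:ℝ) ≤ q := by positivity
        calc 256 * ((X0.card : ℝ) * (q / q.totient))^8
            ≤ 256 * ((2:ℝ)^(1818*m) * ((e:ℝ)+1))^8 := by
              apply mul_le_mul_of_nonneg_left _ (by norm_num)
              apply pow_le_pow_left₀ (by positivity)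
              exact mul_le_mul hX0card hlog (by positivity) (by positivity)
          _ = ((2:ℝ)^(1818*m))^8 * (2*((e:ℝ)+1))^8 := by ring
          _ ≤ (q:ℝ)^2 * q := mul_le_mul h5 h4 (by positivity) (by positivity)
          _ = (q:ℝ)^3 := by ring)
      S
    refine le_trans ?_ hmid
    have : (BB m P S q) ⊆ (Om ι P).filter (fun p => Bad q (2*(2*20000*m)) S p) := by
      intro p hp
      obtain ⟨h1, h2, h3, h4, h5, h6⟩ := Finset.mem_filter.1 hp
      exact Finset.mem_filter.2 ⟨h1, h6⟩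
    exact_mod_cast Finset.card_le_card this
  · have : BB m P S q = ∅ := by
      rw [BB, Finset.filter_eq_empty_iff]
      rintro p _ ⟨_, _, h1, h2, _⟩
      exact hgood ⟨h1, h2⟩
    rw [this]
    simp only [Finset.card_empty, Nat.cast_zero]
    positivity

open Classical in
lemma BB_large (hP : PSet m P) (hm : 3 ≤ m) (S : Finset ι) (q i : ℕ)
    (hi : 1822*m ≤ i) (hq1 : (2^(3636*m))^i < q) (hq2 : q ≤ (2^(3636*m))^(i+1))
    (hS : 4*i ≤ S.card) :
    ((BB m P S q).card : ℝ) ≤ (Om ι P).card *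
      ((q:ℝ)^4 * ((4/2^m)^(S.card - 4*i) + 1/4^(i*(2*20000*m)))) := by
  by_cases hg : Good m P q
  · have : NeZero q := ⟨hg.1.ne'⟩
    set X0 := univ.filter (fun χ : DirichletCharacter ℂ q => χ.conductor ≤ 2^(909*m)) with hX0
    have hX0card : (X0.card : ℝ) ≤ 2^(1818*m) := by
      have h1 := card_small_conductor q (2^(909*m))
      rw [← hX0, ← pow_mul] at h1
      have : ((X0.card : ℕ) : ℝ) ≤ ((2^(909*m*2) : ℕ) : ℝ) := by exact_mod_cast h1
      push_cast at this
      rw [show 1818*m = 909*m*2 by ring]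
      exact this
    have hlog := div_totient_le q hg.1
    have hφ : (0:ℝ) < q.totient := by exact_mod_cast Nat.totient_pos.2 hg.1
    have hPpos : 0 < P.card := by rw [hP.card]; positivity
    have hlarge := large_count (ι := ι) (hg.coprime hP) hP.prime hP.hi hPpos X0
      (L := 20000) (m := m) (i := i) (by norm_num) hm
      (by
        intro χ hχ
        apply hg.char_bound hP
        rw [hX0, Finset.mem_filter] at hχ
        push Not at hχ
        exact hχ (Finset.mem_univ _))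
      (by
        refine lt_of_le_of_lt (le_of_eq ?_) hq1
        rw [← pow_mul, ← pow_mul]; congr 1; ring)
      (by
        set e := Nat.log 2 q with he
        have he1 : e ≤ 3636*m*(i+1) := by
          have : q ≤ 2^(3636*m*(i+1)) := by rw [pow_mul]; exact hq2
          calc e ≤ Nat.log 2 (2^(3636*m*(i+1))) := Nat.log_mono_right this
            _ = _ := Nat.log_pow (by norm_num) _
        have he2 : e + 1 ≤ 2^i := by
          refine le_trans ?_ (num3 i (by omega))
          have : 3636*m ≤ 2*i := by omega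
          have := Nat.mul_le_mul_right (i+1) this
          omega
        have he3 : ((e:ℝ)+1) ≤ 2^i := by exact_mod_cast he2
        have h1 : (2:ℝ)^(1821*m+1) ≤ 2^i := pow_le_pow_right₀ (by norm_num) (by omega)
        have h16 : (16:ℝ)^i = 4^i * 4^i := by rw [← mul_pow]; norm_num
        have h4i : (4:ℝ)^i = 2^i * 2^i := by rw [← mul_pow]; norm_num
        have e1 : 4^m * ((X0.card : ℝ) / q.totient) * (2 * 4^i * (q / 16^i))
            = (2 * 4^m * X0.card * (q / q.totient)) / 4^i := by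
          rw [h16]; field_simp
        rw [e1, div_le_div_iff₀ (by positivity) (by positivity), one_mul]
        calc 2 * 4^m * (X0.card:ℝ) * (q / q.totient) * 2^m
            ≤ 2 * 4^m * (2^(1818*m)) * ((e:ℝ)+1) * 2^m := by
              apply mul_le_mul_of_nonneg_right _ (by positivity)
              apply mul_le_mul _ hlog (by positivity) (by positivity)
              exact mul_le_mul_of_nonneg_left hX0card (by positivity)
          _ = 2^(1821*m+1) * ((e:ℝ)+1) := by
              rw [show (4:ℝ)^m = 2^(2*m) by rw [pow_mul]; norm_num,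
                show 1821*m+1 = 1+2*m+1818*m+m by ring, pow_add, pow_add, pow_add, pow_one]
              ring
          _ ≤ 2^i * 2^i := mul_le_mul h1 he3 (by positivity) (by positivity)
          _ = 4^i := h4i.symm)
      S hS
    refine le_trans ?_ hlarge
    have : (BB m P S q) ⊆ (Om ι P).filter (fun p => Set.InjOn p (S : Set ι) ∧
        Bad q (2*(2*20000*m)) S p) := by
      intro p hp
      obtain ⟨h1, h2, h3, h4, h5, h6⟩ := Finset.mem_filter.1 hp
      exact Finset.mem_filter.2 ⟨h1, h2, h6⟩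
    exact_mod_cast Finset.card_le_card this
  · have : BB m P S q = ∅ := by
      rw [BB, Finset.filter_eq_empty_iff]
      rintro p _ ⟨_, _, h1, _⟩
      exact hg h1
    rw [this]
    simp only [Finset.card_empty, Nat.cast_zero]
    positivity

lemma one_add_pow_le {m n : ℕ} (hn : n ≤ 2^m) : ((1+1/8^m:ℝ))^n ≤ 4 := by
  have h1 : (1+1/8^m:ℝ) ≤ Real.exp (1/8^m) := by
    have := Real.add_one_le_exp (1/8^m : ℝ)
    linarith
  calc ((1+1/8^m:ℝ))^n ≤ (Real.exp (1/8^m))^n := pow_le_pow_left₀ (by positivity) h1 n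
    _ = Real.exp (n * (1/8^m)) := by rw [← Real.exp_nat_mul]
    _ ≤ Real.exp 1 := by
        apply Real.exp_le_exp.2
        rw [mul_one_div, div_le_one (by positivity)]
        have h2 : (n:ℝ) ≤ 2^m := by exact_mod_cast hn
        exact h2.trans (pow_le_pow_left₀ (by norm_num) (by norm_num) m)
    _ ≤ 4 := by have := Real.exp_one_lt_d9; linarith

open Classical in
/-- the bad event for a subset `S` -/
noncomputable def BS (m : ℕ) (P : Finset ℕ) (S : Finset ι) : Finset (ι → ℕ) :=
  (Om ι P).filter (fun p => Set.InjOn p (S : Set ι) ∧ ∃ q, ∃ _ : NeZero q, Good m P q ∧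
    2^(7272*m) < q ∧ q ≤ (2^(3636*m))^(S.card/100000) ∧ Bad q (2*(2*20000*m)) S p)

lemma BS_card (hP : PSet m P) (hm : 20 ≤ m) (S : Finset ι) (hS1 : S.card ≤ 2^m)
    (hS2 : 100000000*m^2 ≤ S.card) :
    ((BS m P S).card : ℝ) ≤ (Om ι P).card * (1/2^(S.card/2)) := by
  classical
  set n := S.card with hn
  set e := n/10 with he
  set R := n/100000 with hR
  set i1 := n/(40000*m)+1 with hi1
  set Γ := 2^(3636*m) with hΓ
  have hm2 : m ≤ m^2 := by nlinarith
  have hnm : 2000000000*m ≤ n := by nlinarith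
  have hi1m : 1822*m ≤ i1 := by
    have : 2500*m ≤ n/(40000*m) := by
      rw [Nat.le_div_iff_mul_le (by omega)]
      nlinarith
    omega
  have hi1n : ∀ i, i1 ≤ i → n ≤ 40000*m*i := by
    intro i hi
    have := Nat.lt_mul_div_succ n (show 0 < 40000*m by omega)
    have h2 : 40000*m*(n/(40000*m)+1) ≤ 40000*m*i := Nat.mul_le_mul_left _ hi
    omega
  have hΓe : Γ^i1 ≤ 2^e := by
    rw [hΓ, ← pow_mul]
    apply Nat.pow_le_pow_right (by norm_num)
    have h1 : n/(40000*m) * (40000*m) ≤ n := Nat.div_mul_le_self _ _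
    have h2 : 3636*m*i1 = 3636*(m*(n/(40000*m))) + 3636*m := by rw [hi1]; ring
    have h3 : n/(40000*m) * (40000*m) = 40000*(m*(n/(40000*m))) := by ring
    rw [h3] at h1
    rw [h2]
    set y := m*(n/(40000*m))
    omega
  -- covering
  have hcover : BS m P S ⊆ ((Finset.Icc 1 (2^e)).biUnion (fun q => BB m P S q)) ∪
      ((Finset.Ico i1 R).biUnion (fun i => (Finset.Ioc (Γ^i) (Γ^(i+1))).biUnion
        (fun q => BB m P S q))) := by
    intro p hp
    obtain ⟨h1, h2, q, h3, h4, h5, h6, h7⟩ := Finset.mem_filter.1 hp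
    have hBB : p ∈ BB m P S q := Finset.mem_filter.2 ⟨h1, h2, h3, h4, h5, h7⟩
    rw [Finset.mem_union]
    rcases le_or_gt q (2^e) with hqe | hqe
    · left
      rw [Finset.mem_biUnion]
      exact ⟨q, Finset.mem_Icc.2 ⟨h4.1, hqe⟩, hBB⟩
    · right
      have hΓ2 : 2 ≤ Γ := by
        rw [hΓ]
        calc 2 = 2^1 := by norm_num
          _ ≤ _ := Nat.pow_le_pow_right (by norm_num) (by omega)
      -- find i
      have hex : ∃ j, q ≤ Γ^j := ⟨R, h6⟩
      set j := Nat.find hex with hj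
      have hj1 : q ≤ Γ^j := Nat.find_spec hex
      have hjmin : ∀ k, k < j → Γ^k < q := fun k hk => not_le.1 (Nat.find_min hex hk)
      have hjR : j ≤ R := Nat.find_min' hex h6
      have hji1 : i1 < j := by
        by_contra hcon
        push Not at hcon
        have h8 : Γ^j ≤ Γ^i1 := Nat.pow_le_pow_right (by omega) hcon
        omega
      rw [Finset.mem_biUnion]
      refine ⟨j-1, Finset.mem_Ico.2 ⟨by omega, by omega⟩, ?_⟩
      rw [Finset.mem_biUnion]
      refine ⟨q, Finset.mem_Ioc.2 ⟨hjmin _ (by omega), ?_⟩, hBB⟩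
      rw [Nat.sub_add_cancel (by omega)]
      exact hj1
  have hcard : ((BS m P S).card : ℝ) ≤ ∑ q ∈ Finset.Icc 1 (2^e), ((BB m P S q).card : ℝ) +
      ∑ i ∈ Finset.Ico i1 R, ∑ q ∈ Finset.Ioc (Γ^i) (Γ^(i+1)), ((BB m P S q).card : ℝ) := by
    have h1 : (BS m P S).card ≤ ∑ q ∈ Finset.Icc 1 (2^e), (BB m P S q).card +
      ∑ i ∈ Finset.Ico i1 R, ∑ q ∈ Finset.Ioc (Γ^i) (Γ^(i+1)), (BB m P S q).card := by
      refine (Finset.card_le_card hcover).trans ((Finset.card_union_le _ _).trans ?_)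
      apply Nat.add_le_add Finset.card_biUnion_le
      refine Finset.card_biUnion_le.trans ?_
      apply Finset.sum_le_sum
      intro i _
      exact Finset.card_biUnion_le
    exact_mod_cast h1
  have hOm0 : (0:ℝ) ≤ (Om ι P).card := by positivity
  -- middle part
  have hmid : ∑ q ∈ Finset.Icc 1 (2^e), ((BB m P S q).card : ℝ) ≤
      (Om ι P).card * (16 * 2^(4*e) / 2^n) := by
    have h1 : ∀ q ∈ Finset.Icc 1 (2^e), ((BB m P S q).card : ℝ) ≤
        (Om ι P).card * (16 * 2^(3*e) / 2^n) := by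
      intro q hq
      refine (BB_mid hP (by omega) S q).trans ?_
      apply mul_le_mul_of_nonneg_left _ hOm0
      have hq2 : (q:ℝ) ≤ 2^e := by exact_mod_cast (Finset.mem_Icc.1 hq).2
      have hq3 : (q:ℝ)^3 ≤ 2^(3*e) := by
        calc (q:ℝ)^3 ≤ (2^e)^3 := pow_le_pow_left₀ (by positivity) hq2 3
          _ = 2^(3*e) := by rw [← pow_mul, mul_comm]
      rw [← hn, div_pow]
      have h2 := one_add_pow_le (m := m) hS1
      calc 4 * (q:ℝ)^3 * ((1+1/8^m)^n/2^n) = (4 * (q:ℝ)^3 * (1+1/8^m)^n)/2^n := by ring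
        _ ≤ (4 * 2^(3*e) * 4)/2^n := by
            apply div_le_div_of_nonneg_right _ (by positivity)
            apply mul_le_mul _ h2 (by positivity) (by positivity)
            linarith
        _ = _ := by ring
    refine (Finset.sum_le_card_nsmul _ _ _ h1).trans (le_of_eq ?_)
    rw [Nat.card_Icc, nsmul_eq_mul, Nat.add_sub_cancel]
    push_cast
    rw [show 4*e = e+3*e by ring, pow_add]
    ring
  -- large part
  have hlarge : ∑ i ∈ Finset.Ico i1 R, ∑ q ∈ Finset.Ioc (Γ^i) (Γ^(i+1)), ((BB m P S q).card : ℝ) ≤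
      (Om ι P).card * (n * (2 / 2^n)) := by
    have h1 : ∀ i ∈ Finset.Ico i1 R, ∑ q ∈ Finset.Ioc (Γ^i) (Γ^(i+1)), ((BB m P S q).card : ℝ) ≤
        (Om ι P).card * (2 / 2^n) := by
      intro i hi
      obtain ⟨hi1', hiR⟩ := Finset.mem_Ico.1 hi
      have hi100 : 100000*(i+1) ≤ n := by
        have : R * 100000 ≤ n := Nat.div_mul_le_self _ _
        omega
      have h4i : 4*i ≤ n := by omega
      have h2 : ∀ q ∈ Finset.Ioc (Γ^i) (Γ^(i+1)), ((BB m P S q).card : ℝ) ≤ (Om ι P).card *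
          ((Γ:ℝ)^(4*(i+1)) * ((4/2^m)^(n - 4*i) + 1/4^(i*(2*20000*m)))) := by
        intro q hq
        obtain ⟨hq1, hq2⟩ := Finset.mem_Ioc.1 hq
        refine (BB_large hP (by omega) S q i (by omega) hq1 hq2 h4i).trans ?_
        apply mul_le_mul_of_nonneg_left _ hOm0
        apply mul_le_mul_of_nonneg_right _ (by positivity)
        have : (q:ℝ) ≤ (Γ:ℝ)^(i+1) := by exact_mod_cast hq2
        calc (q:ℝ)^4 ≤ ((Γ:ℝ)^(i+1))^4 := pow_le_pow_left₀ (by positivity) this 4
          _ = _ := by rw [← pow_mul, mul_comm]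
      refine (Finset.sum_le_card_nsmul _ _ _ h2).trans ?_
      rw [nsmul_eq_mul, Nat.card_Ioc]
      have h3 : ((Γ^(i+1) - Γ^i : ℕ) : ℝ) ≤ (Γ:ℝ)^(i+1) := by
        have : Γ^(i+1) - Γ^i ≤ Γ^(i+1) := Nat.sub_le _ _
        exact_mod_cast this
      have h5 : (Γ:ℝ)^(i+1) * (Γ:ℝ)^(4*(i+1)) = 2^(18180*m*(i+1)) := by
        rw [hΓ]; push_cast
        rw [← pow_mul, ← pow_mul, ← pow_add]; congr 1; ring
      have h6 : ((4:ℝ)/2^m)^(n-4*i) = 1/2^((m-2)*(n-4*i)) := by
        rw [pow_mul]
        rw [← one_div_pow]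
        congr 1
        have : (2:ℝ)^m = 4 * 2^(m-2) := by
          rw [show (4:ℝ) = 2^2 by norm_num, ← pow_add]; congr 1; omega
        rw [this]; field_simp
      have h7 : (2:ℝ)^(18180*m*(i+1)) * (1/2^((m-2)*(n-4*i))) ≤ 1/2^n := by
        rw [mul_one_div, div_le_div_iff₀ (by positivity) (by positivity), ← pow_add, one_mul]
        apply pow_le_pow_right₀ (by norm_num)
        have a1 : m ≤ 2*(m-2) := by omega
        have a2 : 24999*n ≤ 25000*(n-4*i) := by omega
        have a3 : m * (24999*n) ≤ 2*(m-2) * (25000*(n-4*i)) := Nat.mul_le_mul a1 a2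
        have a4 : m*(100000*(i+1)) ≤ m*n := Nat.mul_le_mul_left m hi100
        have a5 : 20*n ≤ m*n := Nat.mul_le_mul_right n hm
        have a6 : 2*(m-2) * (25000*(n-4*i)) = 50000*((m-2)*(n-4*i)) := by ring
        have a7 : m*(24999*n) = 24999*(m*n) := by ring
        have a8 : m*(100000*(i+1)) = 100000*(m*(i+1)) := by ring
        have a9 : 18180*m*(i+1) = 18180*(m*(i+1)) := by ring
        rw [a9]
        rw [a6, a7] at a3
        rw [a8] at a4
        omega
      have h8 : (2:ℝ)^(18180*m*(i+1)) * (1/4^(i*(2*20000*m))) ≤ 1/2^n := by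
        rw [show (4:ℝ) = 2^2 by norm_num, ← pow_mul, mul_one_div,
          div_le_div_iff₀ (by positivity) (by positivity), ← pow_add, one_mul]
        apply pow_le_pow_right₀ (by norm_num)
        have a1 := hi1n i hi1'
        have a2 : 1 ≤ i := by omega
        have a3 : m*(i+1) ≤ 2*(m*i) := by nlinarith
        have a4 : 18180*m*(i+1) = 18180*(m*(i+1)) := by ring
        have a5 : 2*(i*(2*20000*m)) = 80000*(m*i) := by ring
        have a6 : 40000*m*i = 40000*(m*i) := by ring
        rw [a4, a5]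
        rw [a6] at a1
        omega
      calc ((Γ^(i+1) - Γ^i : ℕ) : ℝ) * ((Om ι P).card *
          ((Γ:ℝ)^(4*(i+1)) * ((4/2^m)^(n - 4*i) + 1/4^(i*(2*20000*m)))))
          ≤ (Γ:ℝ)^(i+1) * ((Om ι P).card *
          ((Γ:ℝ)^(4*(i+1)) * ((4/2^m)^(n - 4*i) + 1/4^(i*(2*20000*m))))) := by
            apply mul_le_mul_of_nonneg_right h3 (by positivity)
        _ = (Om ι P).card * (((Γ:ℝ)^(i+1) * (Γ:ℝ)^(4*(i+1))) *
            ((4/2^m)^(n - 4*i) + 1/4^(i*(2*20000*m)))) := by ring
        _ = (Om ι P).card * (2^(18180*m*(i+1)) * (1/2^((m-2)*(n-4*i))) +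
            2^(18180*m*(i+1)) * (1/4^(i*(2*20000*m)))) := by rw [h5, h6]; ring
        _ ≤ (Om ι P).card * (1/2^n + 1/2^n) := by
            apply mul_le_mul_of_nonneg_left _ hOm0
            exact add_le_add h7 h8
        _ = _ := by ring
    refine (Finset.sum_le_card_nsmul _ _ _ h1).trans ?_
    rw [nsmul_eq_mul, Nat.card_Ico]
    have h2 : ((R - i1 : ℕ) : ℝ) ≤ n := by
      have : R - i1 ≤ n := by omega
      exact_mod_cast this
    calc ((R - i1 : ℕ) : ℝ) * ((Om ι P).card * (2/2^n)) ≤ n * ((Om ι P).card * (2/2^n)) :=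
          mul_le_mul_of_nonneg_right h2 (by positivity)
      _ = _ := by ring
  refine hcard.trans ((add_le_add hmid hlarge).trans ?_)
  rw [← mul_add]
  apply mul_le_mul_of_nonneg_left _ hOm0
  have h1 : (16:ℝ) * 2^(4*e) / 2^n ≤ 1/2 * (1/2^(n/2)) := by
    rw [div_le_iff₀ (by positivity)]
    have h2 : (2:ℝ)^n = 2^(n - n/2) * 2^(n/2) := by rw [← pow_add]; congr 1; omega
    have h3 : 1/2 * (1/2^(n/2)) * (2:ℝ)^n = 1/2 * 2^(n-n/2) := by
      rw [h2]; field_simp
    rw [h3]
    have h4 : (32:ℝ) * 2^(4*e) ≤ 2^(n-n/2) := by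
      rw [show (32:ℝ) = 2^5 by norm_num, ← pow_add]
      apply pow_le_pow_right₀ (by norm_num)
      omega
    linarith
  have h2 : (n:ℝ) * (2/2^n) ≤ 1/2 * (1/2^(n/2)) := by
    rw [mul_div_assoc', div_le_iff₀ (by positivity)]
    have h2 : (2:ℝ)^n = 2^(n - n/2) * 2^(n/2) := by rw [← pow_add]; congr 1; omega
    have h3 : 1/2 * (1/2^(n/2)) * (2:ℝ)^n = 1/2 * 2^(n-n/2) := by
      rw [h2]; field_simp
    rw [h3]
    have h4 : 16*((n-n/2)/2+1) ≤ 2^((n-n/2)/2) := num1 _ (by omega)
    have h5 : 4*n ≤ 2^(n-n/2) := by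
      calc 4*n ≤ 16*((n-n/2)/2+1) := by omega
        _ ≤ 2^((n-n/2)/2) := h4
        _ ≤ _ := Nat.pow_le_pow_right (by norm_num) (by omega)
    have h6 : (4:ℝ)*n ≤ 2^(n-n/2) := by exact_mod_cast h5
    linarith
  linarith

end

end Crest.Agent.H6.Eg
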