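import Crest.Agent.H6.EgTuple

set_option autoImplicit false

namespace Crest.Agent.H6.Eg

open Finset

lemma psi_reduce {M q g a h : ℕ} [NeZero M] [NeZero q] (hM : M = q * g) (hh : h = a * g) (x : ℕ) :
    psi M ((h : ZMod M) * (x : ZMod M)) = psi q ((a : ZMod q) * (x : ZMod q)) := by
  have hg : (g:ℂ) ≠ 0 := by
    have : g ≠ 0 := by
      rintro rfl
      exact NeZero.ne M (by rw [hM, mul_zero])
    exact_mod_cast this
  have hq : (q:ℂ) ≠ 0 := by exact_mod_cast NeZero.ne q
  have e1 : ((h : ZMod M) * (x : ZMod M)) = (((h * x : ℕ) : ℤ) : ZMod M) := by push_cast; ring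
  have e2 : ((a : ZMod q) * (x : ZMod q)) = (((a * x : ℕ) : ℤ) : ZMod q) := by push_cast; ring
  rw [e1, e2, psi, psi, ZMod.stdAddChar_coe, ZMod.stdAddChar_coe]
  congr 1
  rw [hM, hh]
  push_cast
  field_simp

lemma addchar_sum {q : ℕ} [NeZero q] {α : Type*} (s : Finset α) (f : α → ZMod q) :
    psi q (∑ i ∈ s, f i) = ∏ i ∈ s, psi q (f i) := by
  classical
  induction s using Finset.induction_on with
  | empty => simp
  | insert a s ha ih => rw [Finset.sum_insert ha, Finset.prod_insert ha, AddChar.map_add_eq_mul, ih]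

/-- the Dirichlet-kernel-like sum -/
noncomputable def DD (q W : ℕ) [NeZero q] (a : ZMod q) : ℂ := ∑ w ∈ range W, psi q (a * (w : ZMod q))

lemma norm_DD_le_W (q W : ℕ) [NeZero q] (a : ZMod q) : ‖DD q W a‖ ≤ W := by
  unfold DD
  refine (norm_sum_le _ _).trans ?_
  simp

lemma norm_DD_le_q (q W : ℕ) [NeZero q] {a : ZMod q} (ha : a ≠ 0) : ‖DD q W a‖ ≤ q := by
  unfold DD
  refine periodic_sum (Nat.pos_of_ne_zero (NeZero.ne q)) (fun n => psi q (a * (n : ZMod q))) ?_ ?_ ?_ W
  · intro n
    congr 2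
    rw [Nat.cast_add, ZMod.natCast_self, add_zero]
  · intro n
    exact (norm_psi q _).le
  · rw [sum_range_zmod (fun x => psi q (a * x))]
    have := AddChar.sum_mulShift (ψ := psi q) a (ZMod.isPrimitive_stdAddChar q)
    rw [if_neg ha, Nat.cast_zero] at this
    rw [← this]
    apply Finset.sum_congr rfl; intro x _
    rw [mul_comm]

/-- reduced denominator of `h/M` -/
def den (M h : ℕ) : ℕ := M / Nat.gcd h M

lemma den_spec {M h : ℕ} (hM : 0 < M) :
    0 < Nat.gcd h M ∧ M = den M h * Nat.gcd h M ∧ h = (h / Nat.gcd h M) * Nat.gcd h M ∧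
      0 < den M h ∧ Nat.Coprime (h / Nat.gcd h M) (den M h) := by
  have hg : 0 < Nat.gcd h M := Nat.gcd_pos_of_pos_right h hM
  refine ⟨hg, ?_, ?_, ?_, ?_⟩
  · unfold den; rw [Nat.div_mul_cancel (Nat.gcd_dvd_right h M)]
  · rw [Nat.div_mul_cancel (Nat.gcd_dvd_left h M)]
  · unfold den; exact Nat.div_pos (Nat.le_of_dvd hM (Nat.gcd_dvd_right h M)) hg
  · unfold den; exact Nat.coprime_div_gcd_div_gcd hg

lemma card_den_le {M q : ℕ} (hM : 0 < M) :
    ((range M).filter (fun h => den M h = q)).card ≤ q := by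
  have hmaps : ∀ h ∈ (range M).filter (fun h => den M h = q), h / Nat.gcd h M ∈ range q := by
    intro h hh
    obtain ⟨h1, h2⟩ := Finset.mem_filter.1 hh
    rw [Finset.mem_range] at h1 ⊢
    obtain ⟨hg, hMq, hhq, _, _⟩ := den_spec (h := h) hM
    rw [h2] at hMq
    by_contra hcon
    push Not at hcon
    have := Nat.mul_le_mul_right (Nat.gcd h M) hcon
    omega
  have hinj : Set.InjOn (fun h => h / Nat.gcd h M) ((range M).filter (fun h => den M h = q) : Set ℕ) := by
    intro h hh h' hh' heq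
    have h2 := (Finset.mem_filter.1 (Finset.mem_coe.1 hh)).2
    have h2' := (Finset.mem_filter.1 (Finset.mem_coe.1 hh')).2
    obtain ⟨hg, hMq, hhq, hd, _⟩ := den_spec (h := h) hM
    obtain ⟨hg', hMq', hhq', _, _⟩ := den_spec (h := h') hM
    rw [h2] at hMq hd
    rw [h2'] at hMq'
    have hgg : Nat.gcd h M = Nat.gcd h' M := by
      have : q * Nat.gcd h M = q * Nat.gcd h' M := by rw [← hMq, ← hMq']
      exact Nat.eq_of_mul_eq_mul_left hd this
    have heq' : h / Nat.gcd h M = h' / Nat.gcd h' M := heq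
    rw [hhq, hhq', heq', hgg]
  have := Finset.card_le_card_of_injOn _ hmaps hinj
  rwa [Finset.card_range] at this

/-- the covering lemma -/
theorem cover {m n : ℕ} {P : Finset ℕ} (hm : 1 ≤ m) (p : Fin n → ℕ) (S : Finset (Fin n)) {M : ℕ}
    (hM : Good m P M) (hMle : M ≤ (2^(3636*m))^(S.card/100000))
    (hnb : ∀ q, ∀ _ : NeZero q, Good m P q → 2^(7272*m) < q →
      q ≤ (2^(3636*m))^(S.card/100000) → ¬ Bad q (2*(2*20000*m)) S p) (c : ℕ) :
    ∃ T : Fin (80000*m) → Finset (Fin n), (∀ i, T i ⊆ S) ∧ ∃ w < 2^(22000*m),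
      (∑ i, ∏ j ∈ T i, p j) + w ≡ c [MOD M] := by
  classical
  by_contra hcon
  push Not at hcon
  set t := 80000*m with ht
  set W := 2^(22000*m) with hW
  have : NeZero M := ⟨hM.1.ne'⟩
  have ht' : 2*(2*20000*m) = t := by rw [ht]; ring
  rw [ht'] at hnb
  set Q1 := 2^(7272*m) with hQ1
  -- the character sum
  set Tt := Fintype.piFinset (fun _ : Fin t => S.powerset) with hTt
  set A : ZMod M → ℂ := fun h => ∑ T ∈ Tt, ∑ w ∈ range W,
    psi M (h * ((((∑ i, ∏ j ∈ T i, p j) + w : ℕ) : ZMod M) - (c : ZMod M))) with hA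
  have hAsum : ∑ h : ZMod M, A h = 0 := by
    simp only [hA]
    rw [Finset.sum_comm]
    apply Finset.sum_eq_zero; intro T hT
    rw [Finset.sum_comm]
    apply Finset.sum_eq_zero; intro w hw
    rw [AddChar.sum_mulShift _ (ZMod.isPrimitive_stdAddChar M), if_neg]
    · exact Nat.cast_zero
    · intro h0
      rw [sub_eq_zero] at h0
      have hT' : ∀ i, T i ⊆ S := fun i => Finset.mem_powerset.1 (Fintype.mem_piFinset.1 hT i)
      exact hcon T hT' w (Finset.mem_range.1 hw) ((ZMod.natCast_eq_natCast_iff _ _ _).1 h0)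
  have hAeq : ∀ h : ZMod M, A h = (2^S.card * fz M S p h)^t * DD M W h * psi M (-(h * c)) := by
    intro h
    have h1 : (2^S.card * fz M S p h : ℂ) = ∑ T ∈ S.powerset, psi M (h * ((∏ i ∈ T, p i : ℕ) : ZMod M)) := by
      unfold fz; field_simp
    rw [h1]
    have h2 : (∑ T ∈ S.powerset, psi M (h * ((∏ i ∈ T, p i : ℕ) : ZMod M)))^t =
        ∑ T ∈ Tt, ∏ i, psi M (h * ((∏ j ∈ T i, p j : ℕ) : ZMod M)) := by
      have h4 := Finset.prod_univ_sum (fun _ : Fin t => S.powerset)
        (fun _ T => psi M (h * ((∏ i ∈ T, p i : ℕ) : ZMod M)))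
      rw [← h4, Finset.prod_const, Finset.card_univ, Fintype.card_fin]
    rw [h2]
    simp only [hA, DD]
    rw [Finset.sum_mul, Finset.sum_mul]
    apply Finset.sum_congr rfl; intro T _
    rw [Finset.mul_sum, Finset.sum_mul]
    apply Finset.sum_congr rfl; intro w _
    rw [← addchar_sum, ← AddChar.map_add_eq_mul, ← AddChar.map_add_eq_mul]
    congr 1
    push_cast
    rw [← Finset.mul_sum]
    ring
  have hnorm : ∀ h : ZMod M, ‖A h‖ = (2^S.card)^t * (‖fz M S p h‖^t * ‖DD M W h‖) := by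
    intro h
    rw [hAeq, norm_mul, norm_mul, norm_psi, mul_one, norm_pow, norm_mul, norm_pow, Complex.norm_ofNat,
      mul_pow]
    ring
  set F : ZMod M → ℝ := fun h => ‖fz M S p h‖^t * ‖DD M W h‖ with hF
  have hF0 : F 0 = W := by
    simp only [hF]
    have e1 : fz M S p 0 = 1 := by
      unfold fz
      simp
    have e2 : DD M W (0 : ZMod M) = W := by
      unfold DD
      simp
    rw [e1, e2]
    simp
  have hmain : (W:ℝ) ≤ ∑ h ∈ (range M).erase 0, F (h : ZMod M) := by
    have h1 : A 0 = - ∑ h ∈ (univ : Finset (ZMod M)).erase 0, A h := by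
      rw [← Finset.add_sum_erase _ _ (Finset.mem_univ (0 : ZMod M))] at hAsum
      exact eq_neg_of_add_eq_zero_left hAsum
    have h2 : ‖A 0‖ ≤ ∑ h ∈ (univ : Finset (ZMod M)).erase 0, ‖A h‖ := by
      rw [h1, norm_neg]; exact norm_sum_le _ _
    simp_rw [hnorm] at h2
    rw [← Finset.mul_sum] at h2
    have h3 := le_of_mul_le_mul_left h2 (by positivity)
    have h4 : F 0 ≤ ∑ h ∈ (univ : Finset (ZMod M)).erase 0, F h := h3
    rw [hF0] at h4
    refine h4.trans (le_of_eq ?_)
    have h5 : ∑ h : ZMod M, F h = ∑ h ∈ range M, F (h : ZMod M) := by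
      have : ∑ h ∈ range M, ((F (h : ZMod M) : ℝ) : ℂ) = ∑ h : ZMod M, ((F h : ℝ) : ℂ) :=
        sum_range_zmod (fun h => ((F h : ℝ) : ℂ))
      rw [← Complex.ofReal_sum, ← Complex.ofReal_sum, Complex.ofReal_inj] at this
      exact this.symm
    have h6 := Finset.add_sum_erase (univ : Finset (ZMod M)) F (Finset.mem_univ 0)
    have h7 := Finset.add_sum_erase (range M) (fun h => F (h : ZMod M)) (Finset.mem_range.2 hM.1)
    simp only [Nat.cast_zero] at h7
    linarith
  -- bound for each h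
  set b : ℕ → ℝ := fun q => if q ≤ Q1 then (Q1:ℝ) else (W:ℝ)/(q:ℝ)^3 with hb
  have hb0 : ∀ q, 0 ≤ b q := by
    intro q; simp only [hb]; split_ifs <;> positivity
  have hterm : ∀ h ∈ (range M).erase 0, F (h : ZMod M) ≤ b (den M h) := by
    intro h hh
    obtain ⟨hh0, hhM⟩ := Finset.mem_erase.1 hh
    rw [Finset.mem_range] at hhM
    obtain ⟨hg, hMq, hhq, hdpos, hcop⟩ := den_spec (h := h) hM.1
    set q := den M h with hq
    set g := Nat.gcd h M with hgdef
    set a := h / g with ha
    have : NeZero q := ⟨hdpos.ne'⟩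
    have hfz : fz M S p (h : ZMod M) = fz q S p (a : ZMod q) := by
      unfold fz
      congr 1
      apply Finset.sum_congr rfl; intro T _
      exact psi_reduce hMq hhq _
    have hDD : DD M W (h : ZMod M) = DD q W (a : ZMod q) := by
      unfold DD
      apply Finset.sum_congr rfl; intro w _
      exact psi_reduce hMq hhq _
    have haq : a < q := by
      by_contra hcon
      push Not at hcon
      have := Nat.mul_le_mul_right g hcon
      omega
    have ha0 : a ≠ 0 := by
      intro h0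
      rw [h0] at hhq
      omega
    have hane : (a : ZMod q) ≠ 0 := by
      rw [Ne, ZMod.natCast_eq_zero_iff]
      intro hd
      exact absurd (Nat.le_of_dvd (Nat.pos_of_ne_zero ha0) hd) (by omega)
    simp only [hF, hb]
    rw [hfz, hDD]
    split_ifs with hqQ
    · have h1 : ‖fz q S p (a : ZMod q)‖^t ≤ 1 := pow_le_one₀ (norm_nonneg _) (norm_fz_le_one _ _ _)
      have h2 := norm_DD_le_q q W hane
      have h3 : (q:ℝ) ≤ Q1 := by exact_mod_cast hqQ
      have h4 := norm_nonneg (DD q W (a : ZMod q))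
      calc _ ≤ 1 * ‖DD q W (a : ZMod q)‖ := mul_le_mul_of_nonneg_right h1 h4
        _ ≤ _ := by rw [one_mul]; exact h2.trans h3
    · push Not at hqQ
      have hqM : q ∣ M := ⟨g, hMq⟩
      have hqg : Good m P q := hM.of_dvd hqM
      have hqle : q ≤ (2^(3636*m))^(S.card/100000) := (Nat.le_of_dvd hM.1 hqM).trans hMle
      have hnot := hnb q inferInstance hqg hqQ hqle
      have hqpos : (0:ℝ) < q := by exact_mod_cast hdpos
      have h1 : ‖fz q S p (a : ZMod q)‖^t * (q:ℝ)^3 ≤ 1 := by
        by_contra hcon2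
        push Not at hcon2
        apply hnot
        refine ⟨ZMod.unitOfCoprime a hcop, ?_⟩
        rw [ZMod.coe_unitOfCoprime]
        exact hcon2
      have h2 := norm_DD_le_W q W (a : ZMod q)
      have h3 : ‖fz q S p (a : ZMod q)‖^t ≤ 1/(q:ℝ)^3 := by
        rw [le_div_iff₀ (by positivity)]; exact h1
      calc _ ≤ (1/(q:ℝ)^3) * W := mul_le_mul h3 h2 (norm_nonneg _) (by positivity)
        _ = _ := by ring
  have hsum1 : ∑ h ∈ (range M).erase 0, F (h : ZMod M) ≤ ∑ q ∈ Finset.Icc 1 M, (q:ℝ) * b q := by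
    refine (Finset.sum_le_sum hterm).trans ?_
    have hmaps : ∀ h ∈ (range M).erase 0, den M h ∈ Finset.Icc 1 M := by
      intro h _
      obtain ⟨hg, hMq, hhq, hdpos, hcop⟩ := den_spec (h := h) hM.1
      rw [Finset.mem_Icc]
      exact ⟨hdpos, Nat.div_le_self _ _⟩
    rw [← Finset.sum_fiberwise_of_maps_to hmaps]
    apply Finset.sum_le_sum
    intro q _
    have h1 : ∑ h ∈ ((range M).erase 0).filter (fun h => den M h = q), b (den M h)
        = ∑ h ∈ ((range M).erase 0).filter (fun h => den M h = q), b q := by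
      apply Finset.sum_congr rfl
      intro h hh
      rw [(Finset.mem_filter.1 hh).2]
    rw [h1, Finset.sum_const, nsmul_eq_mul]
    apply mul_le_mul_of_nonneg_right _ (hb0 q)
    have h2 : (((range M).erase 0).filter (fun h => den M h = q)).card ≤ q := by
      refine le_trans (Finset.card_le_card ?_) (card_den_le (q := q) hM.1)
      exact Finset.filter_subset_filter _ (Finset.erase_subset _ _)
    exact_mod_cast h2
  have hsum2 : ∑ q ∈ Finset.Icc 1 M, (q:ℝ) * b q ≤ (Q1:ℝ)^3 + W/Q1 := by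
    have hQ1pos : 0 < Q1 := by rw [hQ1]; positivity
    have h1 : ∀ q ∈ Finset.Icc 1 M, (q:ℝ) * b q ≤
        (if q ≤ Q1 then (Q1:ℝ)^2 else 0) + (if Q1 < q then (W:ℝ) * ((q:ℝ)^2)⁻¹ else 0) := by
      intro q hq
      have hq1 := (Finset.mem_Icc.1 hq).1
      have hqpos : (0:ℝ) < q := by exact_mod_cast hq1
      simp only [hb]
      by_cases h : q ≤ Q1
      · rw [if_pos h, if_pos h, if_neg (by omega), add_zero, sq]
        apply mul_le_mul_of_nonneg_right _ (by positivity)
        exact_mod_cast h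
      · rw [if_neg h, if_neg h, if_pos (by omega), zero_add]
        apply le_of_eq
        field_simp
    refine (Finset.sum_le_sum h1).trans ?_
    rw [Finset.sum_add_distrib, ← Finset.sum_filter, ← Finset.sum_filter]
    apply add_le_add
    · rw [Finset.sum_const, nsmul_eq_mul]
      have h2 : (((Finset.Icc 1 M).filter (fun q => q ≤ Q1)).card : ℝ) ≤ Q1 := by
        have : ((Finset.Icc 1 M).filter (fun q => q ≤ Q1)) ⊆ Finset.Icc 1 Q1 := by
          intro q hq
          obtain ⟨h3, h4⟩ := Finset.mem_filter.1 hq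
          exact Finset.mem_Icc.2 ⟨(Finset.mem_Icc.1 h3).1, h4⟩
        have := Finset.card_le_card this
        rw [Nat.card_Icc, Nat.add_sub_cancel] at this
        exact_mod_cast this
      calc _ ≤ (Q1:ℝ) * (Q1:ℝ)^2 := mul_le_mul_of_nonneg_right h2 (by positivity)
        _ = _ := by ring
    · rw [← Finset.mul_sum, div_eq_mul_inv]
      apply mul_le_mul_of_nonneg_left _ (by positivity)
      rcases le_or_gt Q1 M with hQM | hQM
      · have h3 := sum_Ioc_inv_sq_le_sub (α := ℝ) hQ1pos.ne' hQM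
        have h4 : (Finset.Icc 1 M).filter (fun q => Q1 < q) = Finset.Ioc Q1 M := by
          ext q
          rw [Finset.mem_filter, Finset.mem_Icc, Finset.mem_Ioc]
          omega
        rw [h4]
        have h5 : (0:ℝ) ≤ (M:ℝ)⁻¹ := by positivity
        linarith
      · have h4 : (Finset.Icc 1 M).filter (fun q => Q1 < q) = ∅ := by
          rw [Finset.filter_eq_empty_iff]
          intro q hq
          have := (Finset.mem_Icc.1 hq).2
          omega
        rw [h4, Finset.sum_empty]
        positivity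
  have hfin : (Q1:ℝ)^3 + W/Q1 < W := by
    have hQ4 : (4:ℝ) ≤ Q1 := by
      rw [hQ1]; push_cast
      calc (4:ℝ) = 2^2 := by norm_num
        _ ≤ _ := pow_le_pow_right₀ (by norm_num) (by omega)
    have hWQ : 2 * (Q1:ℝ)^3 ≤ W := by
      rw [hQ1, hW]; push_cast
      rw [← pow_mul]
      calc 2 * (2:ℝ)^(7272*m*3) = 2^(7272*m*3+1) := by rw [pow_succ]; ring
        _ ≤ _ := pow_le_pow_right₀ (by norm_num) (by omega)
    have hWpos : (0:ℝ) < W := by rw [hW]; positivity
    have h1 : (W:ℝ)/Q1 ≤ W/4 := div_le_div_of_nonneg_left hWpos.le (by norm_num) hQ4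
    linarith
  linarith

end Crest.Agent.H6.Eg
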