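import Crest.Agent.H6.EgF

set_option autoImplicit false

namespace Crest.Agent.H6.Eg

open Finset ComplexConjugate

/-- the sample space -/
abbrev Om (ι : Type*) [Fintype ι] [DecidableEq ι] (P : Finset ℕ) : Finset (ι → ℕ) :=
  Fintype.piFinset (fun _ => P)

section
variable {ι : Type*} [Fintype ι] [DecidableEq ι] {P : Finset ℕ}

lemma avg (Φ : (ι → ℕ) → ℝ) (i : ι) :
    ∑ p ∈ Om ι P, ∑ v ∈ P, Φ (Function.update p i v) = P.card * ∑ p ∈ Om ι P, Φ p := by
  rw [← Finset.sum_product']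
  have h : (P.card : ℝ) * ∑ p ∈ Om ι P, Φ p = ∑ x ∈ (Om ι P) ×ˢ P, Φ x.1 := by
    rw [Finset.sum_product]
    simp [Finset.mul_sum]
  rw [h]
  have hmem : ∀ x ∈ (Om ι P) ×ˢ P, (Function.update x.1 i x.2, x.1 i) ∈ (Om ι P) ×ˢ P := by
    intro x hx
    rw [Finset.mem_product] at hx ⊢
    obtain ⟨h1, h2⟩ := hx
    rw [Fintype.mem_piFinset] at h1
    refine ⟨?_, h1 i⟩
    rw [Fintype.mem_piFinset]
    intro k
    by_cases hk : k = i
    · subst hk; simpa using h2
    · simpa [Function.update_of_ne hk] using h1 k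
  refine Finset.sum_bij' (fun x _ => (Function.update x.1 i x.2, x.1 i))
    (fun x _ => (Function.update x.1 i x.2, x.1 i)) hmem hmem ?_ ?_ ?_
  · intro x _; simp
  · intro x _; simp
  · intro x _; simp

lemma card_Om : (Om ι P).card = P.card ^ (Fintype.card ι) := by
  simp [Om, Fintype.card_piFinset]

/-- (I3) -/
lemma I3 {α : Type*} (s : Finset α) (c : α → ℝ) (hc : ∀ a, 0 ≤ c a) {τ : ℝ} (hτ : 0 < τ) (l : ℕ) :
    (∑ a ∈ s, c a^(l+2))^2 ≤ 2 * (τ^l)^2 * (∑ a ∈ s, c a^2)^2
      + 2 / τ^2 * ((∑ a ∈ s, c a^2) * ∑ a ∈ s, c a^(2*(l+2))) := by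
  have h1 : ∀ a, c a^(l+2) ≤ τ^l * c a^2 + (1/τ) * (c a * c a^(l+2)) := by
    intro a
    have h0 := hc a
    rcases le_total (c a) τ with h | h
    · have h2 : c a^(l+2) ≤ τ^l * c a^2 := by
        rw [pow_add]
        exact mul_le_mul_of_nonneg_right (pow_le_pow_left₀ h0 h l) (by positivity)
      have h3 : 0 ≤ (1/τ) * (c a * c a^(l+2)) := by positivity
      linarith
    · have h2 : c a^(l+2) ≤ (1/τ) * (c a * c a^(l+2)) := by
        rw [← mul_assoc]
        have h4 : 1 ≤ 1/τ * c a := by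
          rw [one_div, inv_mul_eq_div, le_div_iff₀ hτ]; linarith
        have h5 : 0 ≤ c a^(l+2) := by positivity
        nlinarith
      have h3 : 0 ≤ τ^l * c a^2 := by positivity
      linarith
  have h2 : ∑ a ∈ s, c a^(l+2) ≤ τ^l * ∑ a ∈ s, c a^2 + (1/τ) * ∑ a ∈ s, c a * c a^(l+2) := by
    refine (Finset.sum_le_sum (fun a _ => h1 a)).trans ?_
    rw [Finset.sum_add_distrib, Finset.mul_sum, Finset.mul_sum]
  have h3 := Finset.sum_mul_sq_le_sq_mul_sq s c (fun a => c a^(l+2))
  have h4 : ∑ a ∈ s, (c a^(l+2))^2 = ∑ a ∈ s, c a^(2*(l+2)) := by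
    apply Finset.sum_congr rfl; intro a _
    rw [← pow_mul, mul_comm]
  rw [h4] at h3
  have h5 : 0 ≤ ∑ a ∈ s, c a^(l+2) := Finset.sum_nonneg (fun a _ => by have := hc a; positivity)
  set X := τ^l * ∑ a ∈ s, c a^2 with hX
  set Y := (1/τ) * ∑ a ∈ s, c a * c a^(l+2) with hY
  have h6 : (∑ a ∈ s, c a^(l+2))^2 ≤ (X+Y)^2 := pow_le_pow_left₀ h5 h2 2
  have h7 : (X+Y)^2 ≤ 2*X^2 + 2*Y^2 := by nlinarith [sq_nonneg (X-Y)]
  have h8 : X^2 = (τ^l)^2 * (∑ a ∈ s, c a^2)^2 := by rw [hX, mul_pow]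
  have h9 : Y^2 ≤ 1/τ^2 * ((∑ a ∈ s, c a^2) * ∑ a ∈ s, c a^(2*(l+2))) := by
    rw [hY, mul_pow, div_pow, one_pow]
    exact mul_le_mul_of_nonneg_left h3 (by positivity)
  calc _ ≤ 2*X^2 + 2*Y^2 := h6.trans h7
    _ ≤ 2 * ((τ^l)^2 * (∑ a ∈ s, c a^2)^2) +
        2 * (1/τ^2 * ((∑ a ∈ s, c a^2) * ∑ a ∈ s, c a^(2*(l+2)))) := by
          rw [h8]; linarith
    _ = _ := by ring


omit [Fintype ι] in
lemma step {q : ℕ} [NeZero q] (hP : ∀ p ∈ P, Nat.Coprime p q)
    (X0 : Finset (DirichletCharacter ℂ q)) (η : ℝ)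
    (hη : ∀ χ, χ ∉ X0 → ‖∑ p ∈ P, χ (p : ZMod q)‖ ≤ η * P.card) (hη0 : 0 ≤ η)
    {L m l : ℕ} (hL : 1 ≤ L) (hl : l + 2 = 2*L*m) {S : Finset ι} {i : ι} (hi : i ∉ S)
    (p : ι → ℕ) {D : ℝ} (hD : FF q 2 S p ≤ D) {τ : ℝ} (hτ : 0 < τ) :
    ∑ v ∈ P, FF q (2*(2*L*m)) (insert i S) (Function.update p i v) ≤
      P.card * ((2/2^m + 4^m * η + 4^m * (X0.card / q.totient) * (2 / τ^2 * D))
          * FF q (2*(2*L*m)) S p
        + 4^m * (X0.card / q.totient) * (2 * (τ^l)^2 * D^2)) := by
  have hD0 : 0 ≤ D := (FF_nonneg _ _ _).trans hD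
  set F := FF q (2*(2*L*m)) S p with hF
  have hF0 : 0 ≤ F := FF_nonneg _ _ _
  set g : ZMod q → ℝ := fun a => ‖fz q S p a‖^(2*L*m) with hg
  have hcong : ∀ v (a : ZMod q), fz q S (Function.update p i v) a = fz q S p a := by
    intro v a
    apply fz_congr
    intro k hk
    have : k ≠ i := fun h => hi (h ▸ hk)
    rw [Function.update_of_ne this]
  have h1 : ∀ v ∈ P, FF q (2*(2*L*m)) (insert i S) (Function.update p i v) ≤
      2/2^m * F + 4^m * ∑ a : (ZMod q)ˣ, g a * g ((v : ZMod q) * a) := by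
    intro v hv
    have hu : IsUnit ((v : ZMod q)) := (ZMod.isUnit_iff_coprime v q).2 (hP v hv)
    have h2 : ∀ a : (ZMod q)ˣ, ‖fz q (insert i S) (Function.update p i v) a‖^(2*(2*L*m)) ≤
        (1/2^m) * (‖fz q S p a‖^(2*(2*L*m)) + ‖fz q S p ((v : ZMod q) * a)‖^(2*(2*L*m)))
        + 4^m * (g a * g ((v : ZMod q) * a)) := by
      intro a
      rw [fz_insert hi, hcong, Function.update_self, hcong]
      exact num_I2 hL m _ _
    unfold FF
    refine (Finset.sum_le_sum (fun a _ => h2 a)).trans ?_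
    rw [Finset.sum_add_distrib, ← Finset.mul_sum, ← Finset.mul_sum, Finset.sum_add_distrib,
      sum_units_mul _ hu (fun a => ‖fz q S p a‖^(2*(2*L*m)))]
    have : FF q (2*(2*L*m)) S p = ∑ a : (ZMod q)ˣ, ‖fz q S p a‖^(2*(2*L*m)) := rfl
    rw [← this, ← hF]
    apply le_of_eq
    ring
  refine (Finset.sum_le_sum h1).trans ?_
  rw [Finset.sum_add_distrib, Finset.sum_const, nsmul_eq_mul, ← Finset.mul_sum]
  have h3 := spectral P hP X0 η hη hη0 g (fun a => by simp only [hg]; positivity)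
  have h4 : ∑ a : (ZMod q)ˣ, (g a)^2 = F := by
    rw [hF]; unfold FF
    apply Finset.sum_congr rfl; intro a _
    simp only [hg]
    rw [← pow_mul]; congr 1; ring
  rw [h4] at h3
  have h5 := I3 (univ : Finset (ZMod q)ˣ) (fun a => ‖fz q S p a‖) (fun a => norm_nonneg _) hτ l
  rw [hl] at h5
  have h6 : (∑ a : (ZMod q)ˣ, g a)^2 ≤ 2 * (τ^l)^2 * D^2 + 2/τ^2 * (D * F) := by
    refine h5.trans ?_
    have e1 : ∑ a : (ZMod q)ˣ, ‖fz q S p a‖^2 = FF q 2 S p := rfl
    have e2 : ∑ a : (ZMod q)ˣ, ‖fz q S p a‖^(2*(2*L*m)) = F := rfl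
    rw [e1, e2]
    have h7 : (FF q 2 S p)^2 ≤ D^2 := pow_le_pow_left₀ (FF_nonneg _ _ _) hD 2
    have h8 : FF q 2 S p * F ≤ D * F := mul_le_mul_of_nonneg_right hD hF0
    have h9 := mul_le_mul_of_nonneg_left h7 (show 0 ≤ 2 * (τ^l)^2 by positivity)
    have h10 := mul_le_mul_of_nonneg_left h8 (show 0 ≤ 2 / τ^2 by positivity)
    linarith
  have hK : (0:ℝ) ≤ X0.card / q.totient := by positivity
  have h11 := mul_le_mul_of_nonneg_left h6 hK
  have hc : (0:ℝ) ≤ P.card := by positivity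
  calc (P.card : ℝ) * (2/2^m * F) + 4^m * ∑ p ∈ P, ∑ a : (ZMod q)ˣ, g a * g ((p : ZMod q) * a)
      ≤ P.card * (2/2^m * F) + 4^m * (P.card * ((X0.card / q.totient) * (∑ a : (ZMod q)ˣ, g a)^2
        + η * F)) := by
        have := mul_le_mul_of_nonneg_left h3 (show (0:ℝ) ≤ 4^m by positivity)
        linarith
    _ ≤ P.card * (2/2^m * F) + 4^m * (P.card * ((X0.card / q.totient) *
        (2 * (τ^l)^2 * D^2 + 2/τ^2 * (D * F)) + η * F)) := by
        have := mul_le_mul_of_nonneg_left h11 (show (0:ℝ) ≤ 4^m * P.card by positivity)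
        linarith
    _ = _ := by ring

open Classical in
/-- the abstract recursion over subsets -/
lemma recursion (F : Finset ι → (ι → ℕ) → ℝ) (hF0 : ∀ S p, 0 ≤ F S p)
    {j : ℕ} {Q μ B : ℝ} (hQ : 0 ≤ Q) (hμ0 : 0 ≤ μ) (hμ : μ ≤ 1/2) (hB : 0 ≤ B)
    (hbase : ∀ S p, F S p ≤ Q)
    (hstep : ∀ (S : Finset ι) (i : ι) (p : ι → ℕ), p ∈ Om ι P → i ∉ S → j ≤ S.card → Set.InjOn p (S : Set ι) →
      ∑ v ∈ P, F (insert i S) (Function.update p i v) ≤ P.card * (μ * F S p + B))
    (hPpos : 0 < P.card) (S : Finset ι) : j ≤ S.card →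
    ∑ p ∈ Om ι P, (if Set.InjOn p (S : Set ι) then F S p else 0) ≤
      (Om ι P).card * (Q * μ^(S.card - j) + 2 * B) := by
  have hbase' : ∀ S : Finset ι, ∑ p ∈ Om ι P, (if Set.InjOn p (S : Set ι) then F S p else 0) ≤
      (Om ι P).card * Q := by
    intro S
    rw [← nsmul_eq_mul]
    apply Finset.sum_le_card_nsmul
    intro p _
    split_ifs
    · exact hbase S p
    · exact hQ
  induction S using Finset.induction_on with
  | empty =>
    intro hj
    have hj0 : j = 0 := by simpa using hj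
    refine (hbase' ∅).trans ?_
    subst hj0
    simp only [Finset.card_empty, Nat.sub_self, pow_zero, mul_one]
    have : (0:ℝ) ≤ (Om ι P).card := by positivity
    nlinarith
  | insert i S hi ih =>
    intro hj
    by_cases hjS : j ≤ S.card
    · have hih := ih hjS
      have hM : (0:ℝ) < P.card := by exact_mod_cast hPpos
      have h1 := avg (P := P) (fun p => if Set.InjOn p ((insert i S : Finset ι) : Set ι) then
        F (insert i S) p else 0) i
      have h2 : ∀ p ∈ Om ι P, ∑ v ∈ P, (if Set.InjOn (Function.update p i v)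
          ((insert i S : Finset ι) : Set ι) then F (insert i S) (Function.update p i v) else 0)
          ≤ P.card * (μ * (if Set.InjOn p (S : Set ι) then F S p else 0) + B) := by
        intro p hp
        by_cases hinj : Set.InjOn p (S : Set ι)
        · rw [if_pos hinj]
          refine le_trans ?_ (hstep S i p hp hi hjS hinj)
          apply Finset.sum_le_sum
          intro v _
          split_ifs
          · exact le_refl _
          · exact hF0 _ _
        · rw [if_neg hinj]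
          have : ∀ v ∈ P, (if Set.InjOn (Function.update p i v)
              ((insert i S : Finset ι) : Set ι) then F (insert i S) (Function.update p i v) else 0)
              = 0 := by
            intro v _
            rw [if_neg]
            intro hcon
            apply hinj
            have h3 : Set.InjOn (Function.update p i v) (S : Set ι) :=
              hcon.mono (by intro k hk; exact Finset.mem_insert_of_mem hk)
            intro a ha b hb hab
            apply h3 ha hb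
            have hai : a ≠ i := fun h => hi (h ▸ ha)
            have hbi : b ≠ i := fun h => hi (h ▸ hb)
            rw [Function.update_of_ne hai, Function.update_of_ne hbi]
            exact hab
          rw [Finset.sum_congr rfl this, Finset.sum_const_zero]
          positivity
      have h3 := Finset.sum_le_sum h2
      rw [h1] at h3
      rw [← Finset.mul_sum, Finset.sum_add_distrib, ← Finset.mul_sum, Finset.sum_const,
        nsmul_eq_mul] at h3
      have h4 := le_of_mul_le_mul_left h3 hM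
      have hcard : (insert i S).card - j = (S.card - j) + 1 := by
        rw [Finset.card_insert_of_notMem hi]; omega
      rw [hcard, pow_succ]
      have h5 := mul_le_mul_of_nonneg_left hih hμ0
      have h6 : (0:ℝ) ≤ (Om ι P).card := by positivity
      have h7 : μ * (2 * B) ≤ B := by nlinarith
      have h8 := mul_le_mul_of_nonneg_left h7 h6
      nlinarith
    · have hcard : (insert i S).card - j = 0 := by
        rw [Finset.card_insert_of_notMem hi] at hj ⊢; omega
      rw [hcard, pow_zero, mul_one]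
      refine (hbase' _).trans ?_
      have : (0:ℝ) ≤ (Om ι P).card := by positivity
      nlinarith

end

end Crest.Agent.H6.Eg
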