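import Crest.Agent.H6.EgPer
import Crest.Agent.H6.EgRec

set_option autoImplicit false

namespace Crest.Agent.H6.Eg

open Finset ComplexConjugate

/-- the duality inequality -/
lemma duality (P : Finset ℕ) (G : ℕ) (hP : ∀ p ∈ P, p.Prime) (hG : ∀ p ∈ P, p ≤ G) (r : ℕ)
    (E : Finset ℕ) (x : ℕ → ℕ → ℂ) {Q : ℝ}
    (hx1 : ∀ d ∈ E, x d 1 = 1) (hxm : ∀ d ∈ E, ∀ a b, x d (a*b) = x d a * x d b)
    (hb : ∀ d ∈ E, ∀ n, ‖x d n‖ ≤ 1)
    (hcorr : ∀ d ∈ E, ∀ d' ∈ E, d ≠ d' → ∀ N, ‖∑ n ∈ range N, x d n * conj (x d' n)‖ ≤ Q)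
    (hQ : 0 ≤ Q)
    {β : ℝ} (hβ : 0 ≤ β) (hbig : ∀ d ∈ E, β ≤ ‖∑ p ∈ P, x d p‖) :
    (E.card:ℝ)^2 * (β^r)^2 ≤ P.card^r * (r^r * (E.card * (G^r+1) + E.card^2 * Q)) := by
  classical
  set z : ℕ → ℂ := fun d => ∑ p ∈ P, x d p with hz
  set c : ℕ → ℂ := fun d => if z d ^ r = 0 then 1 else ((‖z d ^ r‖ : ℝ) : ℂ) / z d ^ r with hc
  have hcz : ∀ d, c d * z d ^ r = ((‖z d ^ r‖ : ℝ) : ℂ) := by
    intro d
    simp only [hc]
    split_ifs with h
    · rw [h]; simp
    · field_simp
  have hcn : ∀ d, ‖c d‖ = 1 := by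
    intro d
    simp only [hc]
    split_ifs with h
    · simp
    · rw [norm_div, Complex.norm_real, norm_norm, div_self]
      exact norm_ne_zero_iff.2 h
  set g : ℕ → ℂ := fun n => ∑ d ∈ E, c d * x d n with hg
  -- product over a tuple
  have hprod : ∀ d ∈ E, ∀ p : Fin r → ℕ, x d (∏ i, p i) = ∏ i, x d (p i) := by
    intro d hd p
    have : ∀ s : Finset (Fin r), x d (∏ i ∈ s, p i) = ∏ i ∈ s, x d (p i) := by
      intro s
      induction s using Finset.induction_on with
      | empty => simpa using hx1 d hd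
      | insert i s hi ih => rw [Finset.prod_insert hi, Finset.prod_insert hi, hxm d hd, ih]
    exact this _
  have hS1 : ∑ p ∈ Om (Fin r) P, g (∏ i, p i) = ((∑ d ∈ E, ‖z d‖^r : ℝ) : ℂ) := by
    simp only [hg]
    rw [Finset.sum_comm, Complex.ofReal_sum]
    apply Finset.sum_congr rfl; intro d hd
    rw [← Finset.mul_sum, Finset.sum_congr rfl (fun p _ => hprod d hd p)]
    have h4 := Finset.prod_univ_sum (fun _ : Fin r => P) (fun _ v => x d v)
    rw [← h4, Finset.prod_const, Finset.card_univ, Fintype.card_fin]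
    rw [show ∑ v ∈ P, x d v = z d from rfl, hcz, norm_pow]
  have hS2 : (∑ d ∈ E, ‖z d‖^r)^2 ≤ (Om (Fin r) P).card * ∑ p ∈ Om (Fin r) P, ‖g (∏ i, p i)‖^2 := by
    have h1 : (∑ d ∈ E, ‖z d‖^r) ≤ ∑ p ∈ Om (Fin r) P, ‖g (∏ i, p i)‖ := by
      calc (∑ d ∈ E, ‖z d‖^r) ≤ |∑ d ∈ E, ‖z d‖^r| := le_abs_self _
        _ = ‖((∑ d ∈ E, ‖z d‖^r : ℝ) : ℂ)‖ := by rw [Complex.norm_real]; rfl
        _ ≤ _ := by rw [← hS1]; exact norm_sum_le _ _
    refine (pow_le_pow_left₀ (by positivity) h1 2).trans ?_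
    exact sq_sum_le_card_mul_sum_sq
  have hmaps : ∀ p ∈ Om (Fin r) P, (∏ i, p i) ∈ range (G^r+1) := by
    intro p hp
    rw [Finset.mem_range, Nat.lt_succ_iff]
    calc ∏ i, p i ≤ ∏ i : Fin r, G := Finset.prod_le_prod' (fun i _ => hG _ (Fintype.mem_piFinset.1 hp i))
      _ = G^r := by simp
  have hfib : ∀ n, ((Om (Fin r) P).filter (fun p => ∏ i, p i = n)).card ≤ r^r := by
    intro n
    rcases Finset.eq_empty_or_nonempty ((Om (Fin r) P).filter (fun p => ∏ i, p i = n)) with h | h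
    · rw [h]; simp
    · obtain ⟨p0, hp0⟩ := h
      obtain ⟨hp0, hn⟩ := Finset.mem_filter.1 hp0
      have hn0 : n ≠ 0 := by
        rw [← hn]
        exact Finset.prod_ne_zero_iff.2 (fun i _ => (hP _ (Fintype.mem_piFinset.1 hp0 i)).ne_zero)
      have hcard : n.primeFactors.card ≤ r := by
        have hsub : n.primeFactors ⊆ (univ : Finset (Fin r)).image p0 := by
          intro v hv
          have hvp := Nat.prime_of_mem_primeFactors hv
          have hvd := Nat.dvd_of_mem_primeFactors hv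
          rw [← hn] at hvd
          obtain ⟨i, _, hi⟩ := (hvp.prime.dvd_finsetProd_iff _).1 hvd
          have := (Nat.prime_dvd_prime_iff_eq hvp (hP _ (Fintype.mem_piFinset.1 hp0 i))).1 hi
          rw [this]
          exact Finset.mem_image_of_mem _ (Finset.mem_univ _)
        refine (Finset.card_le_card hsub).trans (Finset.card_image_le.trans ?_)
        simp
      have hsub2 : (Om (Fin r) P).filter (fun p => ∏ i, p i = n) ⊆
          Fintype.piFinset (fun _ : Fin r => n.primeFactors) := by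
        intro p hp
        obtain ⟨hp1, hp2⟩ := Finset.mem_filter.1 hp
        rw [Fintype.mem_piFinset]
        intro i
        rw [Nat.mem_primeFactors]
        refine ⟨hP _ (Fintype.mem_piFinset.1 hp1 i), ?_, hn0⟩
        rw [← hp2]
        exact Finset.dvd_prod_of_mem p (Finset.mem_univ i)
      refine (Finset.card_le_card hsub2).trans ?_
      rw [Fintype.card_piFinset, Finset.prod_const, Finset.card_univ, Fintype.card_fin]
      exact Nat.pow_le_pow_left hcard r
  have hS3 : ∑ p ∈ Om (Fin r) P, ‖g (∏ i, p i)‖^2 ≤ (r:ℝ)^r * ∑ n ∈ range (G^r+1), ‖g n‖^2 := by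
    rw [← Finset.sum_fiberwise_of_maps_to hmaps, Finset.mul_sum]
    apply Finset.sum_le_sum
    intro n _
    have : ∑ p ∈ (Om (Fin r) P).filter (fun p => ∏ i, p i = n), ‖g (∏ i, p i)‖^2
        = ∑ p ∈ (Om (Fin r) P).filter (fun p => ∏ i, p i = n), ‖g n‖^2 := by
      apply Finset.sum_congr rfl
      intro p hp
      rw [(Finset.mem_filter.1 hp).2]
    rw [this, Finset.sum_const, nsmul_eq_mul]
    apply mul_le_mul_of_nonneg_right _ (by positivity)
    exact_mod_cast hfib n
  have hS4 : ∑ n ∈ range (G^r+1), ‖g n‖^2 ≤ E.card * (G^r+1) + E.card^2 * Q := by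
    have h1 : ((∑ n ∈ range (G^r+1), ‖g n‖^2 : ℝ) : ℂ) =
        ∑ d ∈ E, ∑ d' ∈ E, c d * conj (c d') * ∑ n ∈ range (G^r+1), x d n * conj (x d' n) := by
      rw [Complex.ofReal_sum]
      have h2 : ∀ n, ((‖g n‖^2 : ℝ) : ℂ) =
          ∑ d ∈ E, ∑ d' ∈ E, c d * conj (c d') * (x d n * conj (x d' n)) := by
        intro n
        rw [Complex.ofReal_pow, ← Complex.mul_conj']
        simp only [hg]
        rw [map_sum, Finset.sum_mul_sum]
        apply Finset.sum_congr rfl; intro d _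
        apply Finset.sum_congr rfl; intro d' _
        rw [map_mul]; ring
      rw [Finset.sum_congr rfl (fun n _ => h2 n), Finset.sum_comm]
      apply Finset.sum_congr rfl; intro d _
      rw [Finset.sum_comm]
      apply Finset.sum_congr rfl; intro d' _
      rw [Finset.mul_sum]
    calc ∑ n ∈ range (G^r+1), ‖g n‖^2 ≤ |∑ n ∈ range (G^r+1), ‖g n‖^2| := le_abs_self _
      _ = ‖((∑ n ∈ range (G^r+1), ‖g n‖^2 : ℝ) : ℂ)‖ := by rw [Complex.norm_real]; rfl
      _ ≤ ∑ d ∈ E, ∑ d' ∈ E, (if d = d' then ((G:ℝ)^r+1) else 0) + ∑ d ∈ E, ∑ d' ∈ E, Q := by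
          rw [h1, ← Finset.sum_add_distrib]
          refine (norm_sum_le _ _).trans (Finset.sum_le_sum ?_)
          intro d hd
          rw [← Finset.sum_add_distrib]
          refine (norm_sum_le _ _).trans (Finset.sum_le_sum ?_)
          intro d' hd'
          rw [norm_mul, norm_mul, RCLike.norm_conj, hcn, hcn, one_mul, one_mul]
          split_ifs with hdd
          · subst hdd
            have h5 : ‖∑ n ∈ range (G^r+1), x d n * conj (x d n)‖ ≤ (G:ℝ)^r+1 := by
              refine (norm_sum_le _ _).trans ?_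
              refine (Finset.sum_le_card_nsmul _ _ 1 ?_).trans ?_
              · intro n _
                rw [norm_mul, RCLike.norm_conj]
                have := hb d hd n
                have h0 := norm_nonneg (x d n)
                nlinarith
              · rw [Finset.card_range, nsmul_eq_mul, mul_one]
                push_cast
                exact le_refl _
            linarith
          · rw [zero_add]
            exact hcorr d hd d' hd' hdd _
      _ = _ := by
          simp only [Finset.sum_ite_eq, Finset.sum_ite_mem, Finset.inter_self, Finset.sum_const,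
            nsmul_eq_mul]
          ring
  have hlow : (E.card:ℝ) * β^r ≤ ∑ d ∈ E, ‖z d‖^r := by
    rw [← nsmul_eq_mul]
    apply Finset.card_nsmul_le_sum
    intro d hd
    exact pow_le_pow_left₀ hβ (hbig d hd) r
  have hOm : ((Om (Fin r) P).card : ℝ) = (P.card:ℝ)^r := by
    rw [card_Om, Fintype.card_fin]; push_cast; rfl
  calc (E.card:ℝ)^2 * (β^r)^2 = ((E.card:ℝ) * β^r)^2 := by ring
    _ ≤ (∑ d ∈ E, ‖z d‖^r)^2 := pow_le_pow_left₀ (by positivity) hlow 2
    _ ≤ (P.card:ℝ)^r * ∑ p ∈ Om (Fin r) P, ‖g (∏ i, p i)‖^2 := by rw [← hOm]; exact hS2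
    _ ≤ (P.card:ℝ)^r * ((r:ℝ)^r * ∑ n ∈ range (G^r+1), ‖g n‖^2) :=
        mul_le_mul_of_nonneg_left hS3 (by positivity)
    _ ≤ _ := by
        apply mul_le_mul_of_nonneg_left _ (by positivity)
        exact mul_le_mul_of_nonneg_left hS4 (by positivity)

end Crest.Agent.H6.Eg
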