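import Crest.Agent.H6.EgDual

set_option autoImplicit false

namespace Crest.Agent.H6.Eg

open Finset ComplexConjugate

/-- the set of primes used -/
structure PSet (m : ℕ) (P : Finset ℕ) : Prop where
  prime : ∀ p ∈ P, p.Prime
  lo : ∀ p ∈ P, 2^(908*m) < p
  hi : ∀ p ∈ P, p ≤ 2^(909*m)
  card : P.card = 2^(907*m)

/-- exceptional conductors -/
def Exc (m : ℕ) (P : Finset ℕ) (d : ℕ) : Prop :=
  2^(909*m) < d ∧ ∃ (χ : DirichletCharacter ℂ d), χ.IsPrimitive ∧
    (1/8^m)*(P.card:ℝ) < ‖∑ p ∈ P, χ (p:ZMod d)‖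

open Classical in
lemma exc_count {m : ℕ} {P : Finset ℕ} (hP : PSet m P) (hm : 1 ≤ m) {s : ℕ} (hs : 909*m ≤ s)
    (hs2 : (2*s+1)/(900*m)+1 ≤ 2^m) :
    ((Finset.Icc 1 (2^s)).filter (Exc m P)).card ≤ 2^(s/30) := by
  set E := (Finset.Icc 1 (2^s)).filter (Exc m P) with hE
  rcases Nat.eq_zero_or_pos E.card with h0 | hpos
  · rw [h0]; exact Nat.zero_le _
  set r := (2*s+1)/(900*m)+1 with hr
  -- the characters as functions
  let x : ℕ → ℕ → ℂ := fun d n => if h : Exc m P d then (h.2.choose) (n : ZMod d) else 0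
  have hx : ∀ d (h : Exc m P d) n, x d n = (h.2.choose) (n : ZMod d) := by
    intro d h n
    simp only [x]
    rw [dif_pos h]
  have hEx : ∀ d ∈ E, Exc m P d := fun d hd => (Finset.mem_filter.1 hd).2
  have hEle : ∀ d ∈ E, d ≤ 2^s := fun d hd => (Finset.mem_Icc.1 (Finset.mem_filter.1 hd).1).2
  have hEpos : ∀ d ∈ E, 1 ≤ d := fun d hd => (Finset.mem_Icc.1 (Finset.mem_filter.1 hd).1).1
  have hdual := duality P (2^(909*m)) hP.prime hP.hi r E x (Q := 4^s) (β := 2^(904*m))
    (by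
      intro d hd
      rw [hx d (hEx d hd)]
      simp)
    (by
      intro d hd a b
      rw [hx d (hEx d hd), hx d (hEx d hd), hx d (hEx d hd), Nat.cast_mul, map_mul])
    (by
      intro d hd n
      rw [hx d (hEx d hd)]
      exact DirichletCharacter.norm_le_one _ _)
    (by
      intro d hd d' hd' hne N
      have : NeZero d := ⟨by have := hEpos d hd; omega⟩
      have : NeZero d' := ⟨by have := hEpos d' hd'; omega⟩
      have h1 := char_corr (hEx d hd).2.choose (hEx d' hd').2.choose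
        (hEx d hd).2.choose_spec.1 (hEx d' hd').2.choose_spec.1 hne N
      have h2 : ∑ n ∈ range N, x d n * conj (x d' n) = ∑ n ∈ range N,
          (hEx d hd).2.choose (n : ZMod d) * conj ((hEx d' hd').2.choose (n : ZMod d')) := by
        apply Finset.sum_congr rfl; intro n _
        rw [hx d (hEx d hd), hx d' (hEx d' hd')]
      rw [h2]
      refine h1.trans ?_
      have h3 : d * d' ≤ 4^s := by
        calc d * d' ≤ 2^s * 2^s := Nat.mul_le_mul (hEle d hd) (hEle d' hd')
          _ = 4^s := by rw [← mul_pow]; norm_num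
      exact_mod_cast h3)
    (by positivity) (by positivity)
    (by
      intro d hd
      have h1 := (hEx d hd).2.choose_spec.2
      have h2 : ∑ p ∈ P, x d p = ∑ p ∈ P, (hEx d hd).2.choose (p : ZMod d) := by
        apply Finset.sum_congr rfl; intro n _
        rw [hx d (hEx d hd)]
      rw [h2]
      refine le_trans (le_of_eq ?_) h1.le
      rw [hP.card]
      push_cast
      rw [show (8:ℝ) = 2^3 by norm_num, ← pow_mul, one_div, inv_mul_eq_div, eq_div_iff (by positivity),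
        ← pow_add]
      congr 1; ring)
  rw [hP.card] at hdual
  push_cast at hdual
  set M : ℝ := (E.card : ℝ) with hM
  have hMpos : 0 < M := by rw [hM]; exact_mod_cast hpos
  -- simplify powers
  have hrr : (r:ℝ)^r ≤ 2^(m*r) := by
    rw [pow_mul]
    apply pow_le_pow_left₀ (by positivity)
    exact_mod_cast hs2
  have e1 : (((2:ℝ)^(904*m))^r)^2 = 2^(907*m*r) * 2^(m*r) * 2^(900*m*r) := by
    rw [← pow_mul, ← pow_mul, ← pow_add, ← pow_add]; congr 1; ring
  have e2 : ((2:ℝ)^(907*m))^r = 2^(907*m*r) := by rw [← pow_mul]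
  have e3 : ((2:ℝ)^(909*m))^r = 2^(900*m*r) * 2^(9*m*r) := by
    rw [← pow_mul, ← pow_add]; congr 1; ring
  rw [e1, e2, e3] at hdual
  have hX : 0 ≤ M * (2^(900*m*r) * 2^(9*m*r) + 1) + M^2 * 4^s := by positivity
  have h1 : M^2 * (2^(907*m*r) * 2^(m*r) * 2^(900*m*r)) ≤
      2^(907*m*r) * (2^(m*r) * (M * (2^(900*m*r) * 2^(9*m*r) + 1) + M^2 * 4^s)) := by
    refine hdual.trans ?_
    apply mul_le_mul_of_nonneg_left _ (by positivity)
    exact mul_le_mul_of_nonneg_right hrr hX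
  have h2 : M^2 * 2^(900*m*r) ≤ M * (2^(900*m*r) * 2^(9*m*r) + 1) + M^2 * 4^s := by
    have h3 : (0:ℝ) < 2^(907*m*r) * 2^(m*r) := by positivity
    rw [← mul_le_mul_iff_right₀ h3]
    calc _ = M^2 * (2^(907*m*r) * 2^(m*r) * 2^(900*m*r)) := by ring
      _ ≤ _ := h1
      _ = _ := by ring
  have h3 : (2:ℝ) * 4^s ≤ 2^(900*m*r) := by
    have : 2*s+1 ≤ 900*m*r := by
      rw [hr]
      have := Nat.lt_mul_div_succ (2*s+1) (show 0 < 900*m by omega)
      omega
    calc (2:ℝ) * 4^s = 2^(2*s+1) := by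
          rw [pow_succ, pow_mul]; norm_num; ring
      _ ≤ _ := pow_le_pow_right₀ (by norm_num) this
  have hone : (1:ℝ) ≤ 2^(900*m*r) * 2^(9*m*r) := by
    rw [← pow_add]; exact one_le_pow₀ (by norm_num)
  have h4 : M ≤ 4 * 2^(9*m*r) := by
    have h5 : M * 2^(900*m*r) ≤ (2^(900*m*r) * 2^(9*m*r) + 1) + M * 4^s := by
      rw [← mul_le_mul_iff_right₀ hMpos]
      calc _ = M^2 * 2^(900*m*r) := by ring
        _ ≤ _ := h2
        _ = _ := by ring
    have h6 : M * (2 * 4^s) ≤ M * 2^(900*m*r) := mul_le_mul_of_nonneg_left h3 hMpos.le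
    have h7 : M * 2^(900*m*r) ≤ (4 * 2^(9*m*r)) * 2^(900*m*r) := by linarith
    exact le_of_mul_le_mul_right h7 (by positivity)
  have h5 : 2 + 9*m*r ≤ s/30 := by
    rw [Nat.le_div_iff_mul_le (by norm_num)]
    set w := (2*s+1)/(900*m) with hw
    have h6 : w * (900*m) ≤ 2*s+1 := Nat.div_mul_le_self _ _
    have h7 : 9*m*r = 9*(m*w) + 9*m := by rw [hr]; ring
    have h8 : w*(900*m) = 900*(m*w) := by ring
    rw [h7]
    rw [h8] at h6
    set y := m*w
    omega
  have h6 : (E.card : ℝ) ≤ ((2^(s/30) : ℕ) : ℝ) := by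
    rw [← hM]
    push_cast
    calc M ≤ 4 * 2^(9*m*r) := h4
      _ = 2^(2+9*m*r) := by rw [pow_add]; norm_num
      _ ≤ _ := pow_le_pow_right₀ (by norm_num) h5
  exact_mod_cast h6

/-- numbers without exceptional divisors -/
def Good (m : ℕ) (P : Finset ℕ) (n : ℕ) : Prop :=
  0 < n ∧ (∀ p ∈ P, ¬ p ∣ n) ∧ ∀ d, Exc m P d → ¬ d ∣ n

lemma Good.of_dvd {m : ℕ} {P : Finset ℕ} {n q : ℕ} (h : Good m P n) (hq : q ∣ n) : Good m P q :=
  ⟨Nat.pos_of_dvd_of_pos hq h.1, fun p hp hd => h.2.1 p hp (hd.trans hq),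
    fun d hd hdq => h.2.2 d hd (hdq.trans hq)⟩

lemma Good.coprime {m : ℕ} {P : Finset ℕ} (hP : PSet m P) {q : ℕ} (h : Good m P q) :
    ∀ p ∈ P, Nat.Coprime p q :=
  fun p hp => ((hP.prime p hp).coprime_iff_not_dvd).2 (h.2.1 p hp)

lemma Good.char_bound {m : ℕ} {P : Finset ℕ} (hP : PSet m P) {q : ℕ} [NeZero q] (h : Good m P q)
    (χ : DirichletCharacter ℂ q) (hχ : 2^(909*m) < χ.conductor) :
    ‖∑ p ∈ P, χ (p : ZMod q)‖ ≤ (1/8^m) * P.card := by
  by_contra hcon
  push Not at hcon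
  refine h.2.2 χ.conductor ⟨hχ, χ.primitiveCharacter, χ.primitiveCharacter_isPrimitive, ?_⟩
    χ.conductor_dvd_level
  refine lt_of_lt_of_eq hcon ?_
  congr 1
  apply Finset.sum_congr rfl
  intro p hp
  have hc : IsCoprime (p : ℤ) (q : ℤ) := Nat.isCoprime_iff_coprime.2 (h.coprime hP p hp)
  have := χ.primitiveCharacter_apply_of_isCoprime hc
  simp only [Int.cast_natCast] at this
  exact this.symm

open Classical in
/-- sum of reciprocals of exceptional conductors -/
lemma exc_recip {m : ℕ} {P : Finset ℕ} (hP : PSet m P) (hm : 1 ≤ m) {s : ℕ} (hs : 909*m ≤ s)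
    (hs2 : (2*s+1)/(900*m)+1 ≤ 2^m) :
    ∑ d ∈ (Finset.Icc 1 (2^s)).filter (Exc m P), (1:ℝ)/d
      ≤ (1/2) * ((3/4)^(909*m) - (3/4)^s) := by
  induction s, hs using Nat.le_induction with
  | base =>
    have : (Finset.Icc 1 (2^(909*m))).filter (Exc m P) = ∅ := by
      rw [Finset.filter_eq_empty_iff]
      intro d hd hex
      have := (Finset.mem_Icc.1 hd).2
      have := hex.1
      omega
    rw [this]
    simp
  | succ s hs ih =>
    have hmono : (2*s+1)/(900*m)+1 ≤ 2^m := by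
      refine le_trans ?_ hs2
      have : (2*s+1)/(900*m) ≤ (2*(s+1)+1)/(900*m) := Nat.div_le_div_right (by omega)
      omega
    have hih := ih hmono
    have hcount := exc_count hP hm (show 909*m ≤ s+1 by omega) hs2
    set E1 := (Finset.Icc 1 (2^(s+1))).filter (Exc m P) with hE1
    set E0 := (Finset.Icc 1 (2^s)).filter (Exc m P) with hE0
    have hsub : E0 ⊆ E1 := by
      intro d hd
      rw [hE0, Finset.mem_filter, Finset.mem_Icc] at hd
      rw [hE1, Finset.mem_filter, Finset.mem_Icc]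
      refine ⟨⟨hd.1.1, hd.1.2.trans ?_⟩, hd.2⟩
      exact Nat.pow_le_pow_right (by norm_num) (Nat.le_succ s)
    rw [← Finset.sum_sdiff hsub]
    have h1 : ∑ d ∈ E1 \ E0, (1:ℝ)/d ≤ (E1 \ E0).card • ((1:ℝ)/2^s) := by
      apply Finset.sum_le_card_nsmul
      intro d hd
      rw [Finset.mem_sdiff] at hd
      obtain ⟨hd1, hd0⟩ := hd
      have hd2 : 2^s < d := by
        by_contra hcon
        push Not at hcon
        apply hd0
        rw [hE1, Finset.mem_filter, Finset.mem_Icc] at hd1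
        rw [hE0, Finset.mem_filter, Finset.mem_Icc]
        exact ⟨⟨hd1.1.1, hcon⟩, hd1.2⟩
      apply one_div_le_one_div_of_le (by positivity)
      exact_mod_cast hd2.le
    have h2 : ((E1 \ E0).card : ℝ) ≤ 2^((s+1)/30) := by
      have : (E1 \ E0).card ≤ 2^((s+1)/30) := (Finset.card_le_card Finset.sdiff_subset).trans hcount
      exact_mod_cast this
    have h3 : (2:ℝ)^((s+1)/30) * (1/2^s) ≤ (1/8) * (3/4)^s := by
      have h4 : (2:ℝ)^((s+1)/30) * 8 ≤ (3/2)^s := by
        have h5 : (2:ℝ)^((s+1)/30) * 8 = 2^((s+1)/30+3) := by rw [pow_add]; norm_num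
        rw [h5]
        calc (2:ℝ)^((s+1)/30+3) ≤ 2^(s/2) := pow_le_pow_right₀ (by norm_num) (by omega)
          _ ≤ ((3/2)^2)^(s/2) := pow_le_pow_left₀ (by norm_num) (by norm_num) _
          _ = (3/2)^(2*(s/2)) := by rw [pow_mul]
          _ ≤ (3/2)^s := pow_le_pow_right₀ (by norm_num) (by omega)
      have h6 : ((3:ℝ)/4)^s = (3/2)^s * (1/2^s) := by
        rw [one_div, ← inv_pow, ← mul_pow]; norm_num
      rw [h6]
      have h7 : (0:ℝ) < 1/2^s := by positivity
      nlinarith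
    have h4 : ∑ d ∈ E1 \ E0, (1:ℝ)/d ≤ (1/8) * (3/4)^s := by
      refine h1.trans ?_
      rw [nsmul_eq_mul]
      refine le_trans ?_ h3
      exact mul_le_mul_of_nonneg_right h2 (by positivity)
    rw [pow_succ]
    linarith

/-- arithmetic progressions hit multiples of `d` rarely -/
lemma card_dvd_le (A V X d : ℕ) (hcop : Nat.Coprime A V) :
    ((range X).filter (fun x => d ∣ V + A * x)).card ≤ X/d + 1 := by
  have hmaps : ∀ x ∈ (range X).filter (fun x => d ∣ V + A * x), x / d ∈ range (X/d+1) := by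
    intro x hx
    have := Finset.mem_range.1 (Finset.mem_filter.1 hx).1
    rw [Finset.mem_range, Nat.lt_succ_iff]
    exact Nat.div_le_div_right this.le
  have hinj : Set.InjOn (fun x => x / d) ((range X).filter (fun x => d ∣ V + A * x) : Set ℕ) := by
    intro x hx y hy hxy
    have hx2 : d ∣ V + A * x := (Finset.mem_filter.1 (Finset.mem_coe.1 hx)).2
    have hy2 : d ∣ V + A * y := (Finset.mem_filter.1 (Finset.mem_coe.1 hy)).2
    have hcd : Nat.Coprime d A := by
      have h1 : Nat.gcd d A ∣ V := by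
        have h2 : Nat.gcd d A ∣ V + A * x := (Nat.gcd_dvd_left d A).trans hx2
        have h3 : Nat.gcd d A ∣ A * x := (Nat.gcd_dvd_right d A).mul_right x
        exact (Nat.dvd_add_left h3).1 h2
      have h4 : Nat.gcd d A ∣ Nat.gcd A V := Nat.dvd_gcd (Nat.gcd_dvd_right d A) h1
      rw [hcop] at h4
      exact Nat.dvd_one.1 h4
    have hmod : x ≡ y [MOD d] := by
      have h1 : V + A * x ≡ V + A * y [MOD d] :=
        (Nat.modEq_zero_iff_dvd.2 hx2).trans (Nat.modEq_zero_iff_dvd.2 hy2).symm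
      have h2 : A * x ≡ A * y [MOD d] := Nat.ModEq.add_left_cancel' V h1
      exact Nat.ModEq.cancel_left_of_coprime hcd h2
    have h3 : x / d = y / d := hxy
    have h4 : x % d = y % d := hmod
    rw [← Nat.div_add_mod x d, ← Nat.div_add_mod y d, h3, h4]
  have := Finset.card_le_card_of_injOn _ hmaps hinj
  rwa [Finset.card_range] at this

/-- existence of good numbers in short arithmetic progressions -/
lemma exists_good {m : ℕ} {P : Finset ℕ} (hP : PSet m P) (hm : 3 ≤ m) {s : ℕ} (hs : 909*m ≤ s)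
    (hs2 : (2*s+1)/(900*m)+1 ≤ 2^m) (A V X : ℕ) (hcop : Nat.Coprime A V) (hV : 0 < V)
    (hX1 : 8 * 2^(907*m) ≤ X) (hX2 : 8 * 2^(s/30) ≤ X) (hmax : V + A * X ≤ 2^s) :
    ∃ x < X, Good m P (V + A * x) := by
  classical
  by_contra hcon
  push Not at hcon
  set E := (Finset.Icc 1 (2^s)).filter (Exc m P) with hE
  have hcover : range X ⊆ (P ∪ E).biUnion (fun d => (range X).filter (fun x => d ∣ V + A * x)) := by
    intro x hx
    have hxX := Finset.mem_range.1 hx
    have hng := hcon x hxX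
    unfold Good at hng
    push Not at hng
    rw [Finset.mem_biUnion]
    by_cases h1 : ∀ p ∈ P, ¬ p ∣ V + A * x
    · obtain ⟨d, hd, hdd⟩ := hng (by positivity) h1
      refine ⟨d, ?_, Finset.mem_filter.2 ⟨hx, hdd⟩⟩
      rw [Finset.mem_union]; right
      rw [hE, Finset.mem_filter, Finset.mem_Icc]
      refine ⟨⟨?_, ?_⟩, hd⟩
      · exact Nat.one_le_iff_ne_zero.2 (by have := hd.1; intro h0; rw [h0] at this; exact absurd this (Nat.not_lt_zero _))
      · refine (Nat.le_of_dvd (by positivity) hdd).trans (le_trans ?_ hmax)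
        have := Nat.mul_le_mul_left A hxX.le
        omega
    · push Not at h1
      obtain ⟨p, hp, hpd⟩ := h1
      exact ⟨p, Finset.mem_union_left _ hp, Finset.mem_filter.2 ⟨hx, hpd⟩⟩
  have h1 : X ≤ ∑ d ∈ P ∪ E, (X/d+1) := by
    calc X = (range X).card := (Finset.card_range X).symm
      _ ≤ _ := Finset.card_le_card hcover
      _ ≤ ∑ d ∈ P ∪ E, ((range X).filter (fun x => d ∣ V + A * x)).card := Finset.card_biUnion_le
      _ ≤ _ := by
          apply Finset.sum_le_sum
          intro d _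
          exact card_dvd_le A V X d hcop
  have h2 : (X:ℝ) ≤ ∑ d ∈ P ∪ E, ((X:ℝ) * (1/d) + 1) := by
    have : ((X:ℕ):ℝ) ≤ ((∑ d ∈ P ∪ E, (X/d+1) : ℕ) : ℝ) := by exact_mod_cast h1
    refine this.trans ?_
    push_cast
    apply Finset.sum_le_sum
    intro d _
    have := @Nat.cast_div_le ℝ _ _ _ X d
    rw [mul_one_div]
    linarith
  have h3 : ∑ d ∈ P ∪ E, ((X:ℝ) * (1/d) + 1) ≤
      ∑ d ∈ P, ((X:ℝ) * (1/d) + 1) + ∑ d ∈ E, ((X:ℝ) * (1/d) + 1) := by
    have := Finset.sum_union_inter (s₁ := P) (s₂ := E) (f := fun d : ℕ => ((X:ℝ) * (1/d) + 1))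
    have h4 : 0 ≤ ∑ d ∈ P ∩ E, ((X:ℝ) * (1/d) + 1) := by positivity
    linarith
  have hm' : (1:ℝ)/2^m ≤ 1/8 := by
    apply one_div_le_one_div_of_le (by norm_num)
    calc (8:ℝ) = 2^3 := by norm_num
      _ ≤ 2^m := pow_le_pow_right₀ (by norm_num) hm
  have hX0 : (0:ℝ) ≤ X := by positivity
  have h4 : ∑ d ∈ P, ((X:ℝ) * (1/d) + 1) ≤ X * (1/8) + X/8 := by
    rw [Finset.sum_add_distrib, ← Finset.mul_sum]
    have h5 : ∑ d ∈ P, (1:ℝ)/d ≤ 1/8 := by
      refine (Finset.sum_le_card_nsmul P _ (1/2^(908*m)) ?_).trans ?_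
      · intro d hd
        apply one_div_le_one_div_of_le (by positivity)
        exact_mod_cast (hP.lo d hd).le
      · rw [nsmul_eq_mul, hP.card]
        push_cast
        refine le_trans (le_of_eq ?_) hm'
        rw [show 908*m = 907*m + m by ring, pow_add]
        field_simp
    have h6 : (P.card : ℝ) ≤ X/8 := by
      rw [hP.card]
      have : ((8 * 2^(907*m) : ℕ) : ℝ) ≤ X := by exact_mod_cast hX1
      push_cast at this ⊢
      linarith
    have h7 := mul_le_mul_of_nonneg_left h5 hX0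
    simp only [Finset.sum_const, nsmul_eq_mul, mul_one]
    linarith
  have h5 : ∑ d ∈ E, ((X:ℝ) * (1/d) + 1) ≤ X * (1/2) * (1/2) + X/8 := by
    rw [Finset.sum_add_distrib, ← Finset.mul_sum]
    have h6 := exc_recip hP (by omega) hs hs2
    rw [← hE] at h6
    have h7 : ((3:ℝ)/4)^(909*m) ≤ 1/2 := by
      calc ((3:ℝ)/4)^(909*m) ≤ (3/4)^3 := pow_le_pow_of_le_one (by norm_num) (by norm_num) (by omega)
        _ ≤ 1/2 := by norm_num
    have h8 : (0:ℝ) ≤ (3/4)^s := by positivity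
    have h9 : (E.card : ℝ) ≤ X/8 := by
      have h10 := exc_count hP (by omega) hs hs2
      rw [← hE] at h10
      have h11 : 8 * E.card ≤ X := (Nat.mul_le_mul_left 8 h10).trans hX2
      have : ((8 * E.card : ℕ) : ℝ) ≤ X := by exact_mod_cast h11
      push_cast at this
      linarith
    have h12 : ∑ d ∈ E, (1:ℝ)/d ≤ (1/2) * (1/2) := by linarith
    have h13 := mul_le_mul_of_nonneg_left h12 hX0
    simp only [Finset.sum_const, nsmul_eq_mul, mul_one]
    linarith
  have hXpos : (0:ℝ) < X := by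
    have : 0 < X := lt_of_lt_of_le (by positivity) hX1
    exact_mod_cast this
  linarith

end Crest.Agent.H6.Eg
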