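import Crest.Agent.H6.EgChar

set_option autoImplicit false

namespace Crest.Agent.H6.Eg

open Finset ComplexConjugate

/-- normalised exponential sum over subset products, mod `q` -/
noncomputable def fz {ι : Type*} (q : ℕ) [NeZero q] (S : Finset ι) (p : ι → ℕ) (a : ZMod q) : ℂ :=
  (∑ T ∈ S.powerset, psi q (a * ((∏ i ∈ T, p i : ℕ) : ZMod q))) / 2^S.card

section
variable {ι : Type*} {q : ℕ} [NeZero q]

lemma fz_congr {S : Finset ι} {p p' : ι → ℕ} (h : ∀ i ∈ S, p i = p' i) (a : ZMod q) :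
    fz q S p a = fz q S p' a := by
  unfold fz
  congr 1
  apply Finset.sum_congr rfl; intro T hT
  rw [Finset.prod_congr rfl (fun i hi => h i (Finset.mem_powerset.1 hT hi))]

lemma norm_fz_le_one (S : Finset ι) (p : ι → ℕ) (a : ZMod q) : ‖fz q S p a‖ ≤ 1 := by
  unfold fz
  rw [norm_div, norm_pow, Complex.norm_ofNat, div_le_one (by positivity)]
  refine (norm_sum_le _ _).trans ?_
  simp only [norm_psi, Finset.sum_const, Finset.card_powerset, nsmul_eq_mul, mul_one]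
  push_cast
  exact le_refl _

lemma fz_insert [DecidableEq ι] {S : Finset ι} {i : ι} (hi : i ∉ S) (p : ι → ℕ) (a : ZMod q) :
    fz q (insert i S) p a = (fz q S p a + fz q S p ((p i : ZMod q) * a))/2 := by
  unfold fz
  rw [Finset.sum_powerset_insert hi, Finset.card_insert_of_notMem hi, pow_succ, add_div, add_div,
    div_div, div_div]
  congr 1
  congr 1
  apply Finset.sum_congr rfl; intro T hT
  have hiT : i ∉ T := fun h => hi (Finset.mem_powerset.1 hT h)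
  rw [Finset.prod_insert hiT]
  push_cast
  congr 1
  ring

/-- moments over the units -/
noncomputable def FF (q : ℕ) [NeZero q] (l : ℕ) (S : Finset ι) (p : ι → ℕ) : ℝ :=
  ∑ a : (ZMod q)ˣ, ‖fz q S p a‖^l

lemma FF_nonneg (l : ℕ) (S : Finset ι) (p : ι → ℕ) : 0 ≤ FF q l S p := by
  unfold FF; positivity

lemma FF_congr (l : ℕ) {S : Finset ι} {p p' : ι → ℕ} (h : ∀ i ∈ S, p i = p' i) :
    FF q l S p = FF q l S p' := by
  unfold FF
  apply Finset.sum_congr rfl; intro a _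
  rw [fz_congr h]

lemma FF_le_q (l : ℕ) (S : Finset ι) (p : ι → ℕ) : FF q l S p ≤ q := by
  unfold FF
  calc ∑ a : (ZMod q)ˣ, ‖fz q S p a‖^l ≤ ∑ a : (ZMod q)ˣ, (1:ℝ) :=
        Finset.sum_le_sum (fun a _ => pow_le_one₀ (norm_nonneg _) (norm_fz_le_one _ _ _))
    _ = (q.totient : ℝ) := by simp [ZMod.card_units_eq_totient]
    _ ≤ q := by exact_mod_cast Nat.totient_le q

lemma sum_units_mul (u : ZMod q) (hu : IsUnit u) (F : ZMod q → ℝ) :
    ∑ a : (ZMod q)ˣ, F (u * a) = ∑ a : (ZMod q)ˣ, F a := by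
  obtain ⟨v, rfl⟩ := hu
  exact Equiv.sum_comp (Equiv.mulLeft v) (fun b : (ZMod q)ˣ => F (b : ZMod q))

lemma FF_two_mono [DecidableEq ι] {S : Finset ι} {i : ι} (hi : i ∉ S) (p : ι → ℕ)
    (hp : IsUnit ((p i : ZMod q))) : FF q 2 (insert i S) p ≤ FF q 2 S p := by
  have h1 : ∀ a : (ZMod q)ˣ, ‖fz q (insert i S) p a‖^2 ≤
      (‖fz q S p a‖^2 + ‖fz q S p ((p i : ZMod q) * a)‖^2)/2 := by
    intro a
    rw [fz_insert hi, norm_div, Complex.norm_ofNat]
    have h2 := norm_add_le (fz q S p a) (fz q S p ((p i : ZMod q) * a))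
    have h3 : 0 ≤ ‖fz q S p a + fz q S p ((p i : ZMod q) * a)‖ := norm_nonneg _
    have h4 : (‖fz q S p a + fz q S p ((p i : ZMod q) * a)‖)^2 ≤
      (‖fz q S p a‖ + ‖fz q S p ((p i : ZMod q) * a)‖)^2 := by gcongr
    nlinarith [sq_nonneg (‖fz q S p a‖ - ‖fz q S p ((p i : ZMod q) * a)‖)]
  unfold FF
  refine (Finset.sum_le_sum (fun a _ => h1 a)).trans ?_
  rw [← Finset.sum_div, Finset.sum_add_distrib, sum_units_mul _ hp (fun a => ‖fz q S p a‖^2)]
  linarith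

lemma prod_inj {S : Finset ι} {p : ι → ℕ} (hp : ∀ i ∈ S, (p i).Prime)
    (hinj : Set.InjOn p (S : Set ι)) {T T' : Finset ι} (hT : T ⊆ S) (hT' : T' ⊆ S)
    (h : ∏ i ∈ T, p i = ∏ i ∈ T', p i) : T = T' := by
  have key : ∀ {T T' : Finset ι}, T ⊆ S → T' ⊆ S → ∏ i ∈ T, p i = ∏ i ∈ T', p i → T ⊆ T' := by
    intro T T' hT hT' h i hi
    have h1 : p i ∣ ∏ i ∈ T', p i := by rw [← h]; exact Finset.dvd_prod_of_mem p hi
    obtain ⟨j, hj, hij⟩ := ((hp i (hT hi)).prime.dvd_finsetProd_iff _).1 h1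
    have := (Nat.prime_dvd_prime_iff_eq (hp i (hT hi)) (hp j (hT' hj))).1 hij
    rwa [hinj (hT hi) (hT' hj) this]
  exact Finset.Subset.antisymm (key hT hT' h) (key hT' hT h.symm)

lemma FF_two_base {S : Finset ι} {p : ι → ℕ} {G : ℕ} (hp : ∀ i ∈ S, (p i).Prime)
    (hG : ∀ i ∈ S, p i ≤ G) (hinj : Set.InjOn p (S : Set ι)) (hq : G^S.card < q) :
    FF q 2 S p ≤ q / 2^S.card := by
  classical
  rcases Nat.eq_zero_or_pos G with hG0 | hG0
  · -- then S is empty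
    have hS : S = ∅ := by
      by_contra hne
      obtain ⟨i, hi⟩ := Finset.nonempty_iff_ne_empty.2 hne
      have := hG i hi
      have := (hp i hi).pos
      omega
    subst hS
    simpa using FF_le_q 2 (∅ : Finset ι) p
  have hprod : ∀ T ∈ S.powerset, ∏ i ∈ T, p i < q := by
    intro T hT
    have hTS := Finset.mem_powerset.1 hT
    calc ∏ i ∈ T, p i ≤ ∏ i ∈ T, G := Finset.prod_le_prod' (fun i hi => hG i (hTS hi))
      _ = G^T.card := by simp
      _ ≤ G^S.card := Nat.pow_le_pow_right hG0 (Finset.card_le_card hTS)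
      _ < q := hq
  have hx : Set.InjOn (fun T : Finset ι => ((∏ i ∈ T, p i : ℕ) : ZMod q)) (S.powerset : Set (Finset ι)) := by
    intro T hT T' hT' h
    simp only at h
    rw [ZMod.natCast_eq_natCast_iff'] at h
    rw [Nat.mod_eq_of_lt (hprod T hT), Nat.mod_eq_of_lt (hprod T' hT')] at h
    exact prod_inj hp hinj (Finset.mem_powerset.1 hT) (Finset.mem_powerset.1 hT') h
  have h1 := plancherel S.powerset (fun T : Finset ι => ((∏ i ∈ T, p i : ℕ) : ZMod q)) hx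
    (fun _ => 1/2^S.card)
  have h2 : ∀ a : ZMod q, ∑ T ∈ S.powerset, (1/2^S.card : ℂ) * psi q (a * ((∏ i ∈ T, p i : ℕ) : ZMod q))
      = fz q S p a := by
    intro a
    rw [← Finset.mul_sum]
    unfold fz
    ring
  have h3 : ∑ a : ZMod q, ‖fz q S p a‖^2 = q / 2^S.card := by
    simp_rw [h2] at h1
    rw [h1]
    simp only [Finset.sum_const, Finset.card_powerset, nsmul_eq_mul, norm_div, norm_pow, norm_one,
      Complex.norm_ofNat]
    push_cast
    field_simp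
  rw [← h3]
  unfold FF
  have h5 : ∑ h : (ZMod q)ˣ, ‖fz q S p h‖^2
        = ∑ h ∈ (univ : Finset (ZMod q)ˣ).map ⟨fun b : (ZMod q)ˣ => (b : ZMod q),
            fun a b h => Units.ext h⟩, ‖fz q S p h‖^2 := by
    rw [Finset.sum_map]
    rfl
  rw [h5]
  apply Finset.sum_le_sum_of_subset_of_nonneg (Finset.subset_univ _)
  intro i _ _
  positivity

lemma FF_two_le [DecidableEq ι] {p : ι → ℕ} {G j : ℕ} (hq : G^j < q) (S : Finset ι) :
    j ≤ S.card → (∀ i ∈ S, (p i).Prime) → (∀ i ∈ S, p i ≤ G) → (∀ i ∈ S, IsUnit ((p i : ZMod q)))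
    → Set.InjOn p (S : Set ι) → FF q 2 S p ≤ q / 2^j := by
  induction S using Finset.induction_on with
  | empty =>
    intro h1 h2 h3 h4 h5
    have : j = 0 := by simpa using h1
    subst this
    simpa using FF_le_q 2 (∅ : Finset ι) p
  | insert i S hi ih =>
    intro h1 h2 h3 h4 h5
    by_cases hj : j ≤ S.card
    · refine (FF_two_mono hi p (h4 i (Finset.mem_insert_self _ _))).trans ?_
      exact ih hj (fun k hk => h2 k (Finset.mem_insert_of_mem hk))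
        (fun k hk => h3 k (Finset.mem_insert_of_mem hk))
        (fun k hk => h4 k (Finset.mem_insert_of_mem hk))
        (h5.mono (by intro k hk; exact Finset.mem_insert_of_mem hk))
    · have : j = (insert i S).card := by
        rw [Finset.card_insert_of_notMem hi] at h1 ⊢
        omega
      subst this
      exact FF_two_base h2 h3 h5 hq

end

/-! ### the numerical inequality (I2) -/

lemma num_quarter {L : ℕ} (hL : 1 ≤ L) : (1/4 : ℝ) ≤ (1 - 1/((2*L : ℕ):ℝ))^(2*L) := by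
  have h1 : (1/2 : ℝ) ≤ (1 - 1/((2*L : ℕ):ℝ))^L := by
    have hL' : (1:ℝ) ≤ L := by exact_mod_cast hL
    have := one_add_mul_le_pow (a := -(1/((2*L : ℕ):ℝ))) (by
      push_cast
      rw [neg_le_neg_iff, div_le_iff₀ (by positivity)]
      linarith) L
    have e : 1 + (L:ℝ) * -(1/((2*L : ℕ):ℝ)) = 1/2 := by
      push_cast
      field_simp
      ring
    rw [e] at this
    have e2 : (1 + -(1/((2*L : ℕ):ℝ))) = (1 - 1/((2*L : ℕ):ℝ)) := by ring
    rw [e2] at this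
    exact this
  rw [mul_comm 2 L, pow_mul, mul_comm L 2]
  have := pow_le_pow_left₀ (by norm_num) h1 2
  calc (1/4:ℝ) = (1/2)^2 := by norm_num
    _ ≤ _ := this

lemma num_half {L : ℕ} (hL : 1 ≤ L) : (1 - 1/((2*L : ℕ):ℝ))^(2*L) ≤ 1/2 := by
  have hL' : (1:ℝ) ≤ L := by exact_mod_cast hL
  set x : ℝ := 1/((2*L : ℕ):ℝ) with hx
  have hx0 : 0 < x := by rw [hx]; positivity
  have hx1 : x ≤ 1 := by
    rw [hx]; push_cast
    rw [div_le_one (by positivity)]; linarith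
  have h1 : 2 ≤ (1 + x)^(2*L) := by
    have := one_add_mul_le_pow (a := x) (by linarith) (2*L)
    have e : 1 + ((2*L : ℕ):ℝ) * x = 2 := by
      rw [hx]; field_simp; ring
    rwa [e] at this
  have h2 : (1-x)^(2*L) * (1+x)^(2*L) ≤ 1 := by
    rw [← mul_pow]
    apply pow_le_one₀
    · nlinarith
    · nlinarith
  have h3 : 0 ≤ (1-x)^(2*L) := by
    apply pow_nonneg; linarith
  nlinarith

lemma num_I2_aux {L : ℕ} (hL : 1 ≤ L) (m : ℕ) {X Y : ℝ} (hY : 0 ≤ Y) (hXY : Y ≤ X) :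
    ((X+Y)/2)^(2*(2*L*m)) ≤ (1/2^m) * (X^(2*(2*L*m)) + Y^(2*(2*L*m)))
      + 4^m * (X^(2*L*m) * Y^(2*L*m)) := by
  have hX : 0 ≤ X := hY.trans hXY
  have hL' : (1:ℝ) ≤ L := by exact_mod_cast hL
  by_cases hc : X^(2*L) ≤ 4 * Y^(2*L)
  · have h1 : X^(2*L*m) ≤ 4^m * Y^(2*L*m) := by
      rw [pow_mul X, pow_mul Y, ← mul_pow]
      exact pow_le_pow_left₀ (by positivity) hc m
    have h2 : ((X+Y)/2)^(2*(2*L*m)) ≤ X^(2*(2*L*m)) :=
      pow_le_pow_left₀ (by positivity) (by linarith) _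
    have h3 : X^(2*(2*L*m)) = X^(2*L*m) * X^(2*L*m) := by rw [← pow_add]; congr 1; ring
    have h4 : X^(2*L*m) * X^(2*L*m) ≤ X^(2*L*m) * (4^m * Y^(2*L*m)) :=
      mul_le_mul_of_nonneg_left h1 (by positivity)
    have h5 : 0 ≤ (1/2^m) * (X^(2*(2*L*m)) + Y^(2*(2*L*m))) := by positivity
    rw [h3] at h2
    nlinarith
  · push Not at hc
    have h1 : Y ≤ (1 - 1/((2*L : ℕ):ℝ)) * X := by
      by_contra hcon
      push Not at hcon
      have h2 : 0 ≤ (1 - 1/((2*L : ℕ):ℝ)) := by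
        rw [sub_nonneg]; push_cast
        rw [div_le_one (by positivity)]; linarith
      have h3 : ((1 - 1/((2*L : ℕ):ℝ)) * X)^(2*L) ≤ Y^(2*L) :=
        pow_le_pow_left₀ (by positivity) hcon.le _
      rw [mul_pow] at h3
      have h4 := mul_le_mul_of_nonneg_right (num_quarter hL) (show 0 ≤ X^(2*L) by positivity)
      linarith
    have h2 : (X+Y)/2 ≤ (1 - 1/((2*(2*L) : ℕ):ℝ)) * X := by
      have e : (1 - 1/((2*(2*L) : ℕ):ℝ)) = (1 + (1 - 1/((2*L : ℕ):ℝ)))/2 := by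
        push_cast
        field_simp
        ring
      rw [e]
      linarith
    have h3 : ((X+Y)/2)^(2*(2*L)) ≤ 1/2 * X^(2*(2*L)) := by
      calc ((X+Y)/2)^(2*(2*L)) ≤ ((1 - 1/((2*(2*L) : ℕ):ℝ)) * X)^(2*(2*L)) :=
            pow_le_pow_left₀ (by positivity) h2 _
        _ = (1 - 1/((2*(2*L) : ℕ):ℝ))^(2*(2*L)) * X^(2*(2*L)) := by rw [mul_pow]
        _ ≤ 1/2 * X^(2*(2*L)) :=
            mul_le_mul_of_nonneg_right (num_half (by omega)) (by positivity)
    have h4 : ((X+Y)/2)^(2*(2*L*m)) ≤ (1/2^m) * X^(2*(2*L*m)) := by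
      have e : 2*(2*L*m) = (2*(2*L))*m := by ring
      rw [e, pow_mul, pow_mul X]
      calc (((X+Y)/2)^(2*(2*L)))^m ≤ (1/2 * X^(2*(2*L)))^m := pow_le_pow_left₀ (by positivity) h3 m
        _ = _ := by rw [mul_pow, div_pow, one_pow]
    have h5 : 0 ≤ (1/2^m) * Y^(2*(2*L*m)) + 4^m * (X^(2*L*m) * Y^(2*L*m)) := by positivity
    linarith

/-- (I2) -/
lemma num_I2 {L : ℕ} (hL : 1 ≤ L) (m : ℕ) (x y : ℂ) :
    ‖(x+y)/2‖^(2*(2*L*m)) ≤ (1/2^m) * (‖x‖^(2*(2*L*m)) + ‖y‖^(2*(2*L*m)))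
      + 4^m * (‖x‖^(2*L*m) * ‖y‖^(2*L*m)) := by
  have h1 : ‖(x+y)/2‖ ≤ (‖x‖+‖y‖)/2 := by
    rw [norm_div, Complex.norm_ofNat]
    linarith [norm_add_le x y]
  refine (pow_le_pow_left₀ (norm_nonneg _) h1 _).trans ?_
  rcases le_total ‖y‖ ‖x‖ with h | h
  · exact num_I2_aux hL m (norm_nonneg _) h
  · have := num_I2_aux hL m (norm_nonneg x) h
    rw [add_comm ‖x‖ ‖y‖]
    rw [add_comm (‖x‖^_) (‖y‖^_), mul_comm (‖x‖^_) (‖y‖^_)]
    exact this

end Crest.Agent.H6.Eg
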