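import Mathlib

set_option autoImplicit false

namespace Crest.Agent.H6.Eg

open Finset ComplexConjugate

/-- partial sums of a periodic bounded function with zero mean over a period -/
lemma periodic_sum {Q : ℕ} (hQ : 0 < Q) (F : ℕ → ℂ) (hper : ∀ n, F (n + Q) = F n)
    (hb : ∀ n, ‖F n‖ ≤ 1) (h0 : ∑ n ∈ range Q, F n = 0) (N : ℕ) :
    ‖∑ n ∈ range N, F n‖ ≤ Q := by
  have hmul : ∀ k n, F (Q * k + n) = F n := by
    intro k
    induction k with
    | zero => intro n; simp
    | succ k ih =>
      intro n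
      have : Q * (k+1) + n = (Q * k + n) + Q := by ring
      rw [this, hper, ih]
  have hfull : ∀ k, ∑ n ∈ range (Q * k), F n = 0 := by
    intro k
    induction k with
    | zero => simp
    | succ k ih =>
      rw [Nat.mul_succ, Finset.sum_range_add, ih, zero_add]
      rw [← h0]
      apply Finset.sum_congr rfl; intro n _
      exact hmul k n
  have hN : N = Q * (N / Q) + N % Q := (Nat.div_add_mod N Q).symm
  rw [hN, Finset.sum_range_add, hfull, zero_add]
  refine (norm_sum_le _ _).trans ?_
  refine (Finset.sum_le_card_nsmul _ _ 1 (fun n _ => hb _)).trans ?_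
  rw [Finset.card_range, nsmul_eq_mul, mul_one]
  exact_mod_cast (Nat.mod_lt N hQ).le

lemma sum_range_zmod {Q : ℕ} [NeZero Q] (f : ZMod Q → ℂ) :
    ∑ n ∈ range Q, f (n : ZMod Q) = ∑ a : ZMod Q, f a := by
  refine Finset.sum_bij' (fun n _ => (n : ZMod Q)) (fun a _ => a.val) ?_ ?_ ?_ ?_ ?_
  · intro n _; exact Finset.mem_univ _
  · intro a _; exact Finset.mem_range.2 (ZMod.val_lt a)
  · intro n hn; exact ZMod.val_cast_of_lt (Finset.mem_range.1 hn)
  · intro a _; exact ZMod.natCast_zmod_val a
  · intro n _; rfl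

/-- correlation of two primitive characters with distinct conductors -/
lemma char_corr {d d' : ℕ} [NeZero d] [NeZero d'] (χ : DirichletCharacter ℂ d)
    (χ' : DirichletCharacter ℂ d') (h : χ.IsPrimitive) (h' : χ'.IsPrimitive) (hne : d ≠ d') (N : ℕ) :
    ‖∑ n ∈ range N, χ (n : ZMod d) * conj (χ' (n : ZMod d'))‖ ≤ (d * d' : ℕ) := by
  have hQ : 0 < d * d' := Nat.mul_pos (Nat.pos_of_ne_zero (NeZero.ne d)) (Nat.pos_of_ne_zero (NeZero.ne d'))
  have : NeZero (d * d') := ⟨hQ.ne'⟩
  set ψ : DirichletCharacter ℂ (d * d') :=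
    DirichletCharacter.changeLevel (Nat.dvd_mul_right d d') χ *
      (DirichletCharacter.changeLevel (Nat.dvd_mul_left d' d) χ')⁻¹ with hψ
  have hψ1 : ψ ≠ 1 := by
    intro hcon
    have : DirichletCharacter.changeLevel (Nat.dvd_mul_right d d') χ
      = DirichletCharacter.changeLevel (Nat.dvd_mul_left d' d) χ' := by
      rw [hψ] at hcon
      exact mul_inv_eq_one.1 hcon
    have h1 := congrArg DirichletCharacter.conductor this
    rw [DirichletCharacter.conductor_changeLevel, DirichletCharacter.conductor_changeLevel] at h1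
    rw [DirichletCharacter.isPrimitive_def] at h h'
    rw [h, h'] at h1
    exact hne h1
  have hval : ∀ n : ℕ, ψ (n : ZMod (d * d')) = χ (n : ZMod d) * conj (χ' (n : ZMod d')) := by
    intro n
    by_cases hc : IsCoprime (n : ℤ) ((d * d' : ℕ) : ℤ)
    · have e1 := DirichletCharacter.changeLevel_eq_cast_of_dvd' χ (Nat.dvd_mul_right d d') hc
      have e2 := DirichletCharacter.changeLevel_eq_cast_of_dvd' χ' (Nat.dvd_mul_left d' d) hc
      simp only [Int.cast_natCast] at e1 e2
      rw [hψ, MulChar.mul_apply, e1, ← MulChar.star_apply', e2]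
      rfl
    · have e0 : ψ ((n : ℤ) : ZMod (d * d')) = 0 := (DirichletCharacter.apply_eq_zero_iff _ _).2 hc
      rw [Int.cast_natCast] at e0
      rw [e0]
      push_cast at hc
      rw [IsCoprime.mul_right_iff, not_and_or] at hc
      rcases hc with hc | hc
      · have e1 : χ ((n : ℤ) : ZMod d) = 0 := (DirichletCharacter.apply_eq_zero_iff _ _).2 hc
        rw [Int.cast_natCast] at e1
        rw [e1, zero_mul]
      · have e1 : χ' ((n : ℤ) : ZMod d') = 0 := (DirichletCharacter.apply_eq_zero_iff _ _).2 hc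
        rw [Int.cast_natCast] at e1
        rw [e1, map_zero, mul_zero]
  rw [Finset.sum_congr rfl (fun n _ => (hval n).symm)]
  refine periodic_sum hQ (fun n => ψ (n : ZMod (d * d'))) ?_ ?_ ?_ N
  · intro n
    congr 1
    rw [Nat.cast_add, ZMod.natCast_self, add_zero]
  · intro n
    exact DirichletCharacter.norm_le_one ψ _
  · rw [sum_range_zmod (fun a => ψ a)]
    exact MulChar.sum_eq_zero_of_ne_one hψ1

lemma card_char (d : ℕ) [NeZero d] :
    Fintype.card (DirichletCharacter ℂ d) = d.totient := by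
  rw [← Nat.card_eq_fintype_card, DirichletCharacter.card_eq_totient_of_hasEnoughRootsOfUnity]

open Classical in
/-- characters of small conductor -/
lemma card_small_conductor (q Q0 : ℕ) [NeZero q] :
    ((univ.filter (fun χ : DirichletCharacter ℂ q => χ.conductor ≤ Q0)).card : ℕ) ≤ Q0^2 := by
  let img : ℕ → Finset (DirichletCharacter ℂ q) := fun d =>
    if h : d ∣ q then (univ : Finset (DirichletCharacter ℂ d)).image
      (DirichletCharacter.changeLevel h) else ∅
  have hsub : univ.filter (fun χ : DirichletCharacter ℂ q => χ.conductor ≤ Q0)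
      ⊆ (Finset.Icc 1 Q0).biUnion img := by
    intro χ hχ
    have hle := (Finset.mem_filter.1 hχ).2
    rw [Finset.mem_biUnion]
    refine ⟨χ.conductor, ?_, ?_⟩
    · rw [Finset.mem_Icc]
      exact ⟨Nat.one_le_iff_ne_zero.2 χ.conductor_ne_zero, hle⟩
    · simp only [img]
      rw [dif_pos χ.conductor_dvd_level]
      exact Finset.mem_image.2 ⟨χ.primitiveCharacter, Finset.mem_univ _,
        χ.changeLevel_primitiveCharacter⟩
  refine (Finset.card_le_card hsub).trans ?_
  refine Finset.card_biUnion_le.trans ?_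
  calc ∑ d ∈ Finset.Icc 1 Q0, (img d).card ≤ ∑ d ∈ Finset.Icc 1 Q0, Q0 := by
        apply Finset.sum_le_sum
        intro d hd
        rw [Finset.mem_Icc] at hd
        have : NeZero d := ⟨by omega⟩
        simp only [img]
        split_ifs with h
        · refine Finset.card_image_le.trans ?_
          rw [Finset.card_univ, card_char]
          exact (Nat.totient_le d).trans hd.2
        · simp
    _ = Q0^2 := by simp [sq]

/-- product of `p/(p-1)` over a set of naturals `≥ 2` -/
lemma prod_ratio_le (s : Finset ℕ) : (∀ p ∈ s, 2 ≤ p) →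
    ∏ p ∈ s, ((p:ℝ)/((p:ℝ)-1)) ≤ s.card + 1 := by
  induction s using Finset.induction_on_max with
  | empty => intro _; simp
  | insert a s hmax ih =>
    intro h2
    have ha : a ∉ s := fun h => lt_irrefl _ (hmax a h)
    rw [Finset.prod_insert ha, Finset.card_insert_of_notMem ha]
    have hih := ih (fun p hp => h2 p (Finset.mem_insert_of_mem hp))
    have ha2 := h2 a (Finset.mem_insert_self _ _)
    -- s ⊆ Ico 2 a so card + 2 ≤ a
    have hcard : s.card + 2 ≤ a := by
      have : s ⊆ Finset.Ico 2 a := by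
        intro x hx
        rw [Finset.mem_Ico]
        exact ⟨h2 x (Finset.mem_insert_of_mem hx), hmax x hx⟩
      have := Finset.card_le_card this
      rw [Nat.card_Ico] at this
      omega
    have hc : (s.card : ℝ) + 2 ≤ a := by exact_mod_cast hcard
    have hs0 : (0:ℝ) ≤ s.card := by positivity
    have h1 : (a:ℝ)/((a:ℝ)-1) ≤ (s.card + 2)/(s.card + 1) := by
      rw [div_le_div_iff₀ (by linarith) (by linarith)]
      nlinarith
    have h3 : 0 ≤ ∏ p ∈ s, ((p:ℝ)/((p:ℝ)-1)) := by
      apply Finset.prod_nonneg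
      intro p hp
      have : (2:ℝ) ≤ p := by exact_mod_cast h2 p (Finset.mem_insert_of_mem hp)
      apply div_nonneg <;> linarith
    calc (a:ℝ)/((a:ℝ)-1) * ∏ p ∈ s, ((p:ℝ)/((p:ℝ)-1))
        ≤ (s.card + 2)/(s.card + 1) * (s.card + 1) := by
          apply mul_le_mul h1 hih h3
          positivity
      _ = _ := by
          push_cast
          field_simp
          ring

lemma div_totient_le (q : ℕ) (hq : 0 < q) :
    (q:ℝ) / q.totient ≤ Nat.log 2 q + 1 := by
  have h1 := Nat.totient_mul_prod_primeFactors q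
  have hφ : (0:ℝ) < q.totient := by exact_mod_cast Nat.totient_pos.2 hq
  have h2 : (q:ℝ) / q.totient = ∏ p ∈ q.primeFactors, ((p:ℝ)/((p:ℝ)-1)) := by
    rw [Finset.prod_div_distrib]
    have h3 : (q.totient : ℝ) * ∏ p ∈ q.primeFactors, (p:ℝ) =
        q * ∏ p ∈ q.primeFactors, ((p:ℝ)-1) := by
      have := congrArg (fun n : ℕ => (n:ℝ)) h1
      push_cast at this
      rw [this]
      congr 1
      apply Finset.prod_congr rfl
      intro p hp
      rw [Nat.cast_sub (Nat.prime_of_mem_primeFactors hp).one_le]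
      simp
    have h4 : ∏ p ∈ q.primeFactors, ((p:ℝ)-1) ≠ 0 := by
      rw [Finset.prod_ne_zero_iff]
      intro p hp
      have : (2:ℝ) ≤ p := by exact_mod_cast (Nat.prime_of_mem_primeFactors hp).two_le
      linarith
    rw [div_eq_div_iff hφ.ne' h4]
    linarith
  rw [h2]
  refine (prod_ratio_le _ (fun p hp => (Nat.prime_of_mem_primeFactors hp).two_le)).trans ?_
  have h5 : q.primeFactors.card ≤ Nat.log 2 q := by
    rw [Nat.le_log_iff_pow_le (by norm_num) hq.ne']
    calc 2^q.primeFactors.card = ∏ p ∈ q.primeFactors, 2 := by simp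
      _ ≤ ∏ p ∈ q.primeFactors, p :=
          Finset.prod_le_prod' (fun p hp => (Nat.prime_of_mem_primeFactors hp).two_le)
      _ ≤ q := Nat.le_of_dvd hq (Nat.prod_primeFactors_dvd q)
  have : (q.primeFactors.card : ℝ) ≤ Nat.log 2 q := by exact_mod_cast h5
  linarith

end Crest.Agent.H6.Eg
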