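import Crest.Agent.H6.EgRep
import Crest.Agent.H6.EgCover

set_option autoImplicit false

namespace Crest.Agent.H6.Eg

open Finset

/-- one greedy step -/
lemma greedy_step {A J : ℕ} (hA : 0 < A) (hJ : 0 < J) :
    ∃ A' : ℕ, 0 < A' ∧ A' ≤ A ∧
      (A:ℚ)/J = 1/((J/A+1 : ℕ):ℚ) + (A':ℚ)/(J*((J/A+1 : ℕ):ℚ)) := by
  set n := J/A+1 with hn
  have h1 : J < A*n := Nat.lt_mul_div_succ J hA
  have h2 : A*n ≤ J + A := by
    rw [hn, Nat.mul_add, mul_one]
    have := Nat.mul_div_le J A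
    omega
  have h3 : 0 < A*n - J := Nat.sub_pos_of_lt h1
  have h4 : A*n - J ≤ A := by
    rw [Nat.sub_le_iff_le_add, add_comm]; exact h2
  refine ⟨A*n - J, h3, h4, ?_⟩
  have hn0 : (0:ℚ) < n := by
    have : 0 < n := Nat.succ_pos _
    exact_mod_cast this
  have hJ0 : (0:ℚ) < J := by exact_mod_cast hJ
  have hA0 : (0:ℚ) < A := by exact_mod_cast hA
  rw [Nat.cast_sub h1.le]
  push_cast
  field_simp
  ring

/-- Phase 1: the greedy algorithm -/
lemma phase1 (a b H : ℕ) (ha : 1 ≤ a) (hab : a < b) (hH : 1 ≤ H) (i : ℕ) :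
    ∃ (A B : ℕ) (r : ℚ), 0 < A ∧ A < b ∧ 0 < B ∧ (a:ℚ)/b = r + (A:ℚ)/((b*B : ℕ) : ℚ) ∧
      Rep r (i+1) ∧
      ((H*A ≤ b*B ∧ B ≤ H^2) ∨ (b*B < H*A ∧ A*2^(2^i) ≤ b*B)) := by
  have hHH : H ≤ H^2 := by nlinarith
  -- general step
  have hstep : ∀ (A B : ℕ) (r : ℚ) (t x y : ℕ), 0 < A → A < b → 0 < B →
      (a:ℚ)/b = r + (A:ℚ)/((b*B : ℕ) : ℚ) → Rep r t → b*B < H*A → A*x ≤ b*B → y ≤ x*((b*B)/A+1) →
      ∃ (A' B' : ℕ) (r' : ℚ), 0 < A' ∧ A' < b ∧ 0 < B' ∧ (a:ℚ)/b = r' + (A':ℚ)/((b*B' : ℕ) : ℚ) ∧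
      Rep r' (t+1) ∧
      ((H*A' ≤ b*B' ∧ B' ≤ H^2) ∨ (b*B' < H*A' ∧ A'*y ≤ b*B')) := by
    intro A B r t x y hA hAb hB heq hrep hlt hx hy
    have hb : 0 < b := by omega
    have hJ : 0 < b*B := Nat.mul_pos hb hB
    obtain ⟨A', hA', hA'A, heq'⟩ := greedy_step hA hJ
    set n := (b*B)/A+1 with hn
    have hnH : n ≤ H := by
      have : (b*B)/A < H := Nat.div_lt_of_lt_mul (by rw [mul_comm A H]; exact hlt)
      omega
    have hBH : B < H := by
      by_contra hcon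
      push Not at hcon
      have h1 : H*A ≤ B*b := Nat.mul_le_mul hcon hAb.le
      rw [mul_comm B b] at h1
      omega
    have hn0 : 0 < n := Nat.succ_pos _
    refine ⟨A', B*n, r + 1/(n:ℚ), hA', lt_of_le_of_lt hA'A hAb, Nat.mul_pos hB hn0, ?_,
      hrep.add (Rep.unit n hn0), ?_⟩
    · rw [heq, heq', add_assoc]
      congr 2
      push_cast
      ring
    · by_cases hc : H*A' ≤ b*(B*n)
      · left
        refine ⟨hc, ?_⟩
        rw [sq]
        exact Nat.mul_le_mul hBH.le hnH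
      · right
        push Not at hc
        refine ⟨hc, ?_⟩
        calc A'*y ≤ A*(x*n) := Nat.mul_le_mul hA'A hy
          _ = (A*x)*n := by ring
          _ ≤ (b*B)*n := Nat.mul_le_mul_right n hx
          _ = _ := by ring
  induction i with
  | zero =>
    by_cases hc : H*a ≤ b
    · refine ⟨a, 1, 0, ha, hab, one_pos, by push_cast; ring, Rep.zero.mono (by omega), Or.inl ⟨by omega, ?_⟩⟩
      exact Nat.one_le_iff_ne_zero.2 (by positivity)
    · push Not at hc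
      have h2 := hstep a 1 0 0 1 (2^(2^0)) ha hab one_pos (by push_cast; ring) Rep.zero (by omega)
        (by omega) (by
          have : 1 ≤ (b*1)/a := (Nat.one_le_div_iff ha).2 (by omega)
          simp only [pow_zero, pow_one]
          omega)
      exact h2
  | succ i ih =>
    obtain ⟨A, B, r, hA, hAb, hB, heq, hrep, hor⟩ := ih
    rcases hor with h | ⟨h1, h2⟩
    · exact ⟨A, B, r, hA, hAb, hB, heq, hrep.mono (by omega), Or.inl h⟩
    · refine hstep A B r (i+1) (2^(2^i)) (2^(2^(i+1))) hA hAb hB heq hrep h1 h2 ?_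
      have h3 : 2^(2^i) ≤ (b*B)/A := by
        rw [Nat.le_div_iff_mul_le hA, mul_comm]; exact h2
      calc 2^(2^(i+1)) = 2^(2^i) * 2^(2^i) := by rw [← pow_add]; congr 1; ring
        _ ≤ _ := Nat.mul_le_mul_left _ (by omega)

/-- divisor chains with small steps -/
def Ch (G x : ℕ) : Prop :=
  0 < x ∧ ∀ J Y : ℕ, Y ≤ J*x → J < Y → ∃ e, 0 < e ∧ ∃ E, x*J = e*E ∧ e ∣ x ∧ Y ≤ E ∧ E < G*Y

lemma Ch.one (G : ℕ) : Ch G 1 := ⟨one_pos, fun J Y h1 h2 => by omega⟩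

lemma Ch.mul {G x a : ℕ} (h : Ch G x) (ha : 0 < a) (haG : a ≤ G) : Ch G (a*x) := by
  refine ⟨Nat.mul_pos ha h.1, fun J Y h1 h2 => ?_⟩
  by_cases hc : Y ≤ J*x
  · obtain ⟨e, he, E, h3, h4, h5, h6⟩ := h.2 J Y hc h2
    refine ⟨a*e, Nat.mul_pos ha he, E, ?_, Nat.mul_dvd_mul_left a h4, h5, h6⟩
    rw [mul_assoc, h3]; ring
  · push Not at hc
    refine ⟨1, one_pos, a*x*J, by ring, one_dvd _, by linarith [mul_comm J (a*x)], ?_⟩
    calc a*x*J = a*(J*x) := by ring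
      _ < a*Y := Nat.mul_lt_mul_of_pos_left hc ha
      _ ≤ G*Y := Nat.mul_le_mul_right Y haG

lemma Ch.pow_two {G : ℕ} (hG : 2 ≤ G) (v : ℕ) : Ch G (2^v) := by
  induction v with
  | zero => exact Ch.one G
  | succ v ih => rw [pow_succ, mul_comm]; exact ih.mul (by norm_num) hG

lemma Ch.prod {ι : Type*} {G x : ℕ} (h : Ch G x) (s : Finset ι) (p : ι → ℕ)
    (hp : ∀ i ∈ s, 0 < p i ∧ p i ≤ G) : Ch G (x * ∏ i ∈ s, p i) := by
  classical
  induction s using Finset.induction_on with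
  | empty => simpa using h
  | insert i s hi ih =>
    rw [Finset.prod_insert hi]
    have := (ih (fun k hk => hp k (Finset.mem_insert_of_mem hk))).mul
      (hp i (Finset.mem_insert_self _ _)).1 (hp i (Finset.mem_insert_self _ _)).2
    convert this using 1
    ring

/-- a sum of subset products plus a small number, divided by `D` -/
lemma rep_cover {n t v : ℕ} (p : Fin n → ℕ) (T : Fin t → Finset (Fin n)) {w D : ℕ}
    (hw : w < 2^v) (hD : 0 < D) (h2 : 2^v ∣ D) (hT : ∀ i, (∏ j ∈ T i, p j) ∣ D) :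
    Rep ((((∑ i, ∏ j ∈ T i, p j) + w : ℕ) : ℚ)/D) (t + v) := by
  have h1 := Rep.sum_dvd (univ : Finset (Fin t)) (fun i => ∏ j ∈ T i, p j) hD (fun i _ => hT i)
  rw [Finset.card_univ, Fintype.card_fin] at h1
  have h3 := h1.add (Rep.pow_two hw hD h2)
  convert h3 using 1
  push_cast
  ring

end Crest.Agent.H6.Eg
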