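import Mathlib

set_option autoImplicit false

namespace Crest.Agent.H6.Eg

/-- `r` is a sum of at most `t` unit fractions (repetition allowed). -/
def Rep (r : ℚ) (t : ℕ) : Prop :=
  ∃ m : Multiset ℕ, (∀ n ∈ m, 0 < n) ∧ Multiset.card m ≤ t ∧
    (m.map (fun n : ℕ => (1:ℚ)/n)).sum = r

lemma Rep.zero : Rep 0 0 := ⟨0, by simp, by simp, by simp⟩

lemma Rep.mono {r : ℚ} {s t : ℕ} (h : Rep r s) (hst : s ≤ t) : Rep r t := by
  obtain ⟨m, h1, h2, h3⟩ := h
  exact ⟨m, h1, h2.trans hst, h3⟩

lemma Rep.add {r s : ℚ} {a b : ℕ} (h : Rep r a) (h' : Rep s b) : Rep (r+s) (a+b) := by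
  obtain ⟨m, h1, h2, h3⟩ := h
  obtain ⟨m', h1', h2', h3'⟩ := h'
  refine ⟨m + m', ?_, ?_, ?_⟩
  · intro n hn
    rcases Multiset.mem_add.1 hn with hn | hn
    · exact h1 n hn
    · exact h1' n hn
  · rw [Multiset.card_add]; omega
  · rw [Multiset.map_add, Multiset.sum_add, h3, h3']

lemma Rep.unit (n : ℕ) (hn : 0 < n) : Rep (1/n) 1 :=
  ⟨{n}, by simpa using hn, by simp, by simp⟩

lemma Rep.div {r : ℚ} {t : ℕ} (h : Rep r t) (M : ℕ) (hM : 0 < M) : Rep (r/M) t := by
  obtain ⟨m, h1, h2, h3⟩ := h
  refine ⟨m.map (fun n => n * M), ?_, ?_, ?_⟩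
  · intro n hn
    obtain ⟨n', hn', rfl⟩ := Multiset.mem_map.1 hn
    exact Nat.mul_pos (h1 n' hn') hM
  · simpa using h2
  · rw [Multiset.map_map, ← h3, div_eq_mul_inv, ← Multiset.sum_map_mul_right]
    congr 1
    apply Multiset.map_congr rfl
    intro n _
    simp only [Function.comp, Nat.cast_mul]
    rw [one_div, one_div, mul_inv]

/-- a divisor of `D` over `D` is a unit fraction -/
lemma Rep.of_dvd {d D : ℕ} (hD : 0 < D) (h : d ∣ D) : Rep ((d:ℚ)/D) 1 := by
  obtain ⟨e, rfl⟩ := h
  have hd : 0 < d := Nat.pos_of_mul_pos_right hD |> fun h => by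
    rcases Nat.eq_zero_or_pos d with h0 | h0
    · simp [h0] at hD
    · exact h0
  have he : 0 < e := by
    rcases Nat.eq_zero_or_pos e with h0 | h0
    · simp [h0] at hD
    · exact h0
  have : ((d:ℚ)/((d*e:ℕ):ℚ)) = 1/e := by
    push_cast
    field_simp
  rw [this]
  exact Rep.unit e he

lemma Rep.sum_dvd {ι : Type*} (s : Finset ι) (f : ι → ℕ) {D : ℕ} (hD : 0 < D)
    (h : ∀ i ∈ s, f i ∣ D) : Rep (((∑ i ∈ s, f i : ℕ):ℚ)/D) s.card := by
  classical
  induction s using Finset.induction_on with
  | empty => simpa using Rep.zero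
  | insert a s ha ih =>
    rw [Finset.sum_insert ha, Finset.card_insert_of_notMem ha]
    have h1 := Rep.of_dvd hD (h a (Finset.mem_insert_self _ _))
    have h2 := ih (fun i hi => h i (Finset.mem_insert_of_mem hi))
    have := h1.add h2
    rw [add_comm 1] at this
    convert this using 1
    push_cast
    ring

/-- binary expansions: a number below `2^v` is a sum of `v` divisors of `2^v` (or less) -/
lemma Rep.pow_two {w v : ℕ} (hw : w < 2^v) {D : ℕ} (hD : 0 < D) (h : 2^v ∣ D) :
    Rep ((w:ℚ)/D) v := by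
  induction v generalizing w with
  | zero =>
    have : w = 0 := by simpa using hw
    subst this
    simpa using Rep.zero
  | succ v ih =>
    by_cases hlt : w < 2^v
    · exact (ih hlt ((pow_dvd_pow 2 (Nat.le_succ v)).trans h)).mono (Nat.le_succ v)
    · push Not at hlt
      have h1 : w - 2^v < 2^v := by
        rw [pow_succ] at hw; omega
      have h2 := ih h1 ((pow_dvd_pow 2 (Nat.le_succ v)).trans h)
      have h3 := Rep.of_dvd (d := 2^v) hD ((pow_dvd_pow 2 (Nat.le_succ v)).trans h)
      have := h2.add h3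
      convert this using 1
      rw [Nat.cast_sub hlt]
      ring

/-! ### Making the fractions distinct -/

/-- the set of representations -/
def RepSet (r : ℚ) (t : ℕ) : Set (Multiset ℕ) :=
  {m | (∀ n ∈ m, 0 < n) ∧ Multiset.card m ≤ t ∧ (m.map (fun n : ℕ => (1:ℚ)/n)).sum = r}

lemma repSet_finite (t : ℕ) : ∀ r : ℚ, (RepSet r t).Finite := by
  induction t with
  | zero =>
    intro r
    apply (Set.finite_singleton (0 : Multiset ℕ)).subset
    intro m hm
    have := hm.2.1
    simpa using this
  | succ t ih =>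
    intro r
    have key : RepSet r (t+1) ⊆ {0} ∪ ⋃ n ∈ Finset.range (⌊((t:ℚ)+1)/r⌋₊ + 1),
        (fun m => n ::ₘ m) '' (RepSet (r - 1/n) t) := by
      intro m hm
      obtain ⟨h1, h2, h3⟩ := hm
      rcases Multiset.empty_or_exists_mem m with h0 | ⟨x, hx⟩
      · left; simpa using h0
      right
      have hrpos : 0 < r := by
        rw [← h3]
        obtain ⟨m', rfl⟩ := Multiset.exists_cons_of_mem hx
        rw [Multiset.map_cons, Multiset.sum_cons]
        have hxp := h1 x (Multiset.mem_cons_self _ _)
        have h4 : 0 ≤ (Multiset.map (fun n : ℕ => (1:ℚ)/n) m').sum := by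
          apply Multiset.sum_nonneg
          intro y hy
          obtain ⟨z, _, rfl⟩ := Multiset.mem_map.1 hy
          positivity
        positivity
      -- some element n with 1/n ≥ r/(t+1)
      have hex : ∃ n ∈ m, r ≤ (t+1) * ((1:ℚ)/n) := by
        by_contra hcon
        push Not at hcon
        have h5 : ∀ n ∈ m, ((1:ℚ)/n) ≤ r/(t+1) := by
          intro n hn
          rw [le_div_iff₀ (by positivity)]
          have := hcon n hn
          linarith
        have h6 : (m.map (fun n : ℕ => (1:ℚ)/n)).sum < r := by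
          obtain ⟨m', rfl⟩ := Multiset.exists_cons_of_mem hx
          rw [Multiset.map_cons, Multiset.sum_cons]
          have h7 : (m'.map (fun n : ℕ => (1:ℚ)/n)).sum ≤ Multiset.card m' • (r/(t+1)) := by
            have := Multiset.sum_le_card_nsmul (m'.map (fun n : ℕ => (1:ℚ)/n)) (r/(t+1)) (by
              intro y hy
              obtain ⟨z, hz, rfl⟩ := Multiset.mem_map.1 hy
              exact h5 z (Multiset.mem_cons_of_mem hz))
            simpa using this
          have h8 : (1:ℚ)/x < r/(t+1) := by
            rw [lt_div_iff₀ (by positivity)]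
            have := hcon x hx
            linarith
          have h9 : (Multiset.card m' : ℚ) ≤ t := by
            have : Multiset.card m' + 1 ≤ t + 1 := by simpa using h2
            exact_mod_cast (Nat.le_of_succ_le_succ this)
          rw [nsmul_eq_mul] at h7
          have h10 : (Multiset.card m' : ℚ) * (r/(t+1)) ≤ t * (r/(t+1)) := by
            apply mul_le_mul_of_nonneg_right h9
            positivity
          have h11 : r/(t+1) + t * (r/(t+1)) = r := by
            field_simp
            ring
          linarith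
        linarith
      obtain ⟨n, hn, hnr⟩ := hex
      have hnp := h1 n hn
      obtain ⟨m', rfl⟩ := Multiset.exists_cons_of_mem hn
      simp only [Set.mem_iUnion, Set.mem_image]
      refine ⟨n, ?_, m', ⟨?_, ?_, ?_⟩, rfl⟩
      · rw [Finset.mem_range, Nat.lt_succ_iff]
        apply Nat.le_floor
        rw [le_div_iff₀ hrpos]
        have hn' : (0:ℚ) < n := by exact_mod_cast hnp
        have := mul_le_mul_of_nonneg_left hnr hn'.le
        have e : (n:ℚ) * ((t+1) * ((1:ℚ)/n)) = t + 1 := by field_simp
        rw [e] at this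
        exact this
      · exact fun y hy => h1 y (Multiset.mem_cons_of_mem hy)
      · have : Multiset.card m' + 1 ≤ t + 1 := by simpa using h2
        omega
      · rw [Multiset.map_cons, Multiset.sum_cons] at h3
        linarith
    refine Set.Finite.subset ?_ key
    refine (Set.finite_singleton _).union ?_
    apply Set.Finite.biUnion (Finset.finite_toSet _)
    intro n _
    exact (ih _).image _

/-- sum of squares weight -/
def wsq (m : Multiset ℕ) : ℚ := (m.map (fun n : ℕ => (1:ℚ)/n^2)).sum

theorem Rep.distinct {r : ℚ} {t : ℕ} (h : Rep r t) (hr : r < 1) :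
    ∃ S : Finset ℕ, (∀ n ∈ S, 2 ≤ n) ∧ S.card ≤ t ∧ ∑ n ∈ S, (1:ℚ)/(n:ℚ) = r := by
  classical
  obtain ⟨m0, hm0⟩ := h
  have hne : (RepSet r t).Nonempty := ⟨m0, hm0⟩
  obtain ⟨m, hm, hmax⟩ := (repSet_finite t r).exists_maximalFor wsq _ hne
  have h2le : ∀ n ∈ m, 2 ≤ n := by
    intro n hn
    have hp := hm.1 n hn
    by_contra hcon
    have hn1 : n = 1 := by omega
    subst hn1
    obtain ⟨m', rfl⟩ := Multiset.exists_cons_of_mem hn
    have h3 := hm.2.2
    rw [Multiset.map_cons, Multiset.sum_cons] at h3
    have h4 : 0 ≤ (Multiset.map (fun n : ℕ => (1:ℚ)/n) m').sum := by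
      apply Multiset.sum_nonneg
      intro y hy
      obtain ⟨z, _, rfl⟩ := Multiset.mem_map.1 hy
      positivity
    norm_num at h3
    norm_num at h4
    linarith
  have hnd : m.Nodup := by
    rw [Multiset.nodup_iff_ne_cons_cons]
    intro n m' hcon
    -- m = n ::ₘ n ::ₘ m'
    subst hcon
    have hn2 : 2 ≤ n := h2le n (Multiset.mem_cons_self _ _)
    obtain ⟨h1, h2, h3⟩ := hm
    simp only [Multiset.card_cons] at h2
    simp only [Multiset.map_cons, Multiset.sum_cons] at h3
    have hnQ : (2:ℚ) ≤ n := by exact_mod_cast hn2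
    rcases Nat.even_or_odd n with ⟨c, hc⟩ | ⟨c, hc⟩
    · -- even
      have hc1 : 1 ≤ c := by omega
      have hcQ : (1:ℚ) ≤ c := by exact_mod_cast hc1
      have hnc : (n:ℚ) = c + c := by rw [hc]; push_cast; ring
      have hmem : (c ::ₘ m') ∈ RepSet r t := by
        refine ⟨?_, ?_, ?_⟩
        · intro y hy
          rcases Multiset.mem_cons.1 hy with rfl | hy
          · omega
          · exact h1 y (Multiset.mem_cons_of_mem (Multiset.mem_cons_of_mem hy))
        · simp only [Multiset.card_cons]; omega
        · rw [Multiset.map_cons, Multiset.sum_cons, ← h3, hnc]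
          field_simp
          ring
      have hlt : wsq (n ::ₘ n ::ₘ m') < wsq (c ::ₘ m') := by
        unfold wsq
        simp only [Multiset.map_cons, Multiset.sum_cons]
        rw [hnc]
        have : (1:ℚ)/(c+c)^2 + (1/(c+c)^2) < 1/c^2 := by
          have e1 : (1:ℚ)/(c+c)^2 + (1/(c+c)^2) = 1/(2*c^2) := by field_simp; ring
          rw [e1]
          apply one_div_lt_one_div_of_lt (by positivity)
          nlinarith
        linarith
      exact absurd (hmax hmem hlt.le) (not_le.2 hlt)
    · -- odd, n = 2c+1, c ≥ 1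
      have hc1 : 1 ≤ c := by omega
      have hcQ : (1:ℚ) ≤ c := by exact_mod_cast hc1
      have hnc : (n:ℚ) = 2*c+1 := by rw [hc]; push_cast; ring
      have hmem : ((c+1) ::ₘ ((2*c+1)*(c+1)) ::ₘ m') ∈ RepSet r t := by
        refine ⟨?_, ?_, ?_⟩
        · intro y hy
          rcases Multiset.mem_cons.1 hy with rfl | hy
          · omega
          rcases Multiset.mem_cons.1 hy with rfl | hy
          · positivity
          · exact h1 y (Multiset.mem_cons_of_mem (Multiset.mem_cons_of_mem hy))
        · simp only [Multiset.card_cons]; omega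
        · rw [Multiset.map_cons, Multiset.sum_cons, Multiset.map_cons, Multiset.sum_cons, ← h3, hnc]
          push_cast
          field_simp
          ring
      have hlt : wsq (n ::ₘ n ::ₘ m') < wsq ((c+1) ::ₘ ((2*c+1)*(c+1)) ::ₘ m') := by
        unfold wsq
        simp only [Multiset.map_cons, Multiset.sum_cons]
        rw [hnc]
        push_cast
        have e1 : (1:ℚ)/(c+1)^2 + 1/((2*c+1)*(c+1))^2 - (1/(2*c+1)^2 + 1/(2*c+1)^2)
          = (2*c^2) / ((2*c+1)*(c+1))^2 := by
          field_simp
          ring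
        have e2 : (0:ℚ) < (2*c^2) / ((2*c+1)*(c+1))^2 := by positivity
        linarith
      exact absurd (hmax hmem hlt.le) (not_le.2 hlt)
  refine ⟨m.toFinset, ?_, ?_, ?_⟩
  · intro n hn
    exact h2le n (Multiset.mem_toFinset.1 hn)
  · rw [Multiset.toFinset_card_of_nodup hnd]
    exact hm.2.1
  · rw [← hm.2.2, Finset.sum_eq_multiset_sum, Multiset.toFinset_val, Multiset.dedup_eq_self.2 hnd]

end Crest.Agent.H6.Eg
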