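import Crest.Agent.H6.EgCount

set_option autoImplicit false

namespace Crest.Agent.H6.Eg

open Finset

section
variable {ι : Type*} [Fintype ι] [DecidableEq ι] {P : Finset ℕ} {m : ℕ}

open Classical in
lemma card_coll (hPpos : 0 < P.card) {i j : ι} (hij : i ≠ j) :
    (((Om ι P).filter (fun p => p i = p j)).card : ℝ) ≤ (Om ι P).card / P.card := by
  have hM : (0:ℝ) < P.card := by exact_mod_cast hPpos
  rw [le_div_iff₀ hM, mul_comm]
  have h1 := avg (P := P) (ι := ι) (fun p => if p i = p j then (1:ℝ) else 0) i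
  rw [Finset.sum_ite, Finset.sum_const_zero, add_zero, Finset.sum_const, nsmul_eq_mul, mul_one] at h1
  rw [← h1]
  calc ∑ p ∈ Om ι P, ∑ v ∈ P, (if Function.update p i v i = Function.update p i v j then (1:ℝ) else 0)
      ≤ ∑ p ∈ Om ι P, (1:ℝ) := by
        apply Finset.sum_le_sum
        intro p hp
        simp only [Function.update_self, Function.update_of_ne hij.symm]
        rw [Finset.sum_ite_eq']
        split_ifs <;> norm_num
    _ = _ := by simp

end

lemma family_count (n k : ℕ) (hk : 80*k ≤ n) :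
    (((univ : Finset (Finset (Fin n))).filter (fun S => n - S.card ≤ 2*k)).card : ℝ)
      ≤ 2^(n/10 + n/8 + 1) := by
  have h1 := Fintype.sum_pow_mul_eq_add_pow (Fin n) (1:ℝ) (1/16)
  simp only [one_pow, one_mul, Fintype.card_fin] at h1
  have h2 : ((((univ : Finset (Finset (Fin n))).filter (fun S => n - S.card ≤ 2*k)).card : ℝ))
      * (1/16)^(2*k) ≤ (1+1/16)^n := by
    rw [← h1, ← nsmul_eq_mul]
    calc _ ≤ ∑ S ∈ (univ : Finset (Finset (Fin n))).filter (fun S => n - S.card ≤ 2*k),
          ((1:ℝ)/16)^(n - S.card) := by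
          apply Finset.card_nsmul_le_sum
          intro S hS
          exact pow_le_pow_of_le_one (by norm_num) (by norm_num) (Finset.mem_filter.1 hS).2
      _ ≤ _ := Finset.sum_le_sum_of_subset_of_nonneg (Finset.filter_subset _ _)
          (fun _ _ _ => by positivity)
  have h3 : ((1:ℝ)+1/16)^n ≤ 2^(n/8+1) := by
    calc ((1:ℝ)+1/16)^n ≤ (1+1/16)^(8*(n/8+1)) := pow_le_pow_right₀ (by norm_num) (by omega)
      _ = ((1+1/16)^8)^(n/8+1) := by rw [pow_mul]
      _ ≤ 2^(n/8+1) := pow_le_pow_left₀ (by norm_num) (by norm_num) _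
  have h4 : ((1:ℝ)/16)^(2*k) * 2^(n/10) ≥ 1 := by
    have : ((1:ℝ)/16)^(2*k) = 1/2^(8*k) := by
      rw [one_div_pow, show (16:ℝ) = 2^4 by norm_num, ← pow_mul]; congr 2; ring
    rw [this, ge_iff_le, one_div, inv_mul_eq_div, le_div_iff₀ (by positivity), one_mul]
    exact pow_le_pow_right₀ (by norm_num) (by omega)
  set C := ((((univ : Finset (Finset (Fin n))).filter (fun S => n - S.card ≤ 2*k)).card : ℝ)) with hC
  have hC0 : 0 ≤ C := by positivity
  calc C = C * 1 := by ring
    _ ≤ C * (((1:ℝ)/16)^(2*k) * 2^(n/10)) := mul_le_mul_of_nonneg_left h4 hC0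
    _ = (C * ((1:ℝ)/16)^(2*k)) * 2^(n/10) := by ring
    _ ≤ 2^(n/8+1) * 2^(n/10) := mul_le_mul_of_nonneg_right (h2.trans h3) (by positivity)
    _ = _ := by rw [← pow_add]; congr 1; omega

theorem exists_tuple {m n k : ℕ} {P : Finset ℕ} (hP : PSet m P) (hm : 20 ≤ m) (hn : n ≤ 2^m)
    (hk : 100000000*m^2 ≤ k) (hkn : 80*k ≤ n) (S0 : Finset (Fin n)) (hS0 : S0.card = k) :
    ∃ p : Fin n → ℕ, (∀ i, p i ∈ P) ∧ Function.Injective p ∧
      ∀ S : Finset (Fin n), (S = S0 ∨ n - S.card ≤ 2*k) → ∀ q, ∀ _ : NeZero q, Good m P q →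
        2^(7272*m) < q → q ≤ (2^(3636*m))^(S.card/100000) → ¬ Bad q (2*(2*20000*m)) S p := by
  classical
  by_contra hcon
  push Not at hcon
  set fam := insert S0 ((univ : Finset (Finset (Fin n))).filter (fun S => n - S.card ≤ 2*k)) with hfam
  have hm2 : m ≤ m^2 := by nlinarith
  have hPpos : 0 < P.card := by rw [hP.card]; positivity
  have hcover : Om (Fin n) P ⊆ ((univ : Finset (Fin n × Fin n)).filter (fun x => x.1 ≠ x.2)).biUnion
      (fun x => (Om (Fin n) P).filter (fun p => p x.1 = p x.2)) ∪
      ((univ : Finset (Finset (Fin n))).filter (fun S => n - S.card ≤ 2*k)).biUnion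
        (fun S => BS m P S) ∪ BS m P S0 := by
    intro p hp
    have hp' := Fintype.mem_piFinset.1 hp
    rw [Finset.mem_union, Finset.mem_union]
    by_cases hinj : Function.Injective p
    · obtain ⟨S, hS, q, hq, h1, h2, h3, h4⟩ := hcon p hp' hinj
      have hmem : p ∈ BS m P S := Finset.mem_filter.2 ⟨hp, hinj.injOn, q, hq, h1, h2, h3, h4⟩
      rcases hS with rfl | hS
      · right; exact hmem
      · left; right
        rw [Finset.mem_biUnion]
        exact ⟨S, Finset.mem_filter.2 ⟨Finset.mem_univ _, hS⟩, hmem⟩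
    · left; left
      unfold Function.Injective at hinj
      push Not at hinj
      obtain ⟨i, j, hij, hne⟩ := hinj
      rw [Finset.mem_biUnion]
      exact ⟨(i,j), Finset.mem_filter.2 ⟨Finset.mem_univ _, hne⟩, Finset.mem_filter.2 ⟨hp, hij⟩⟩
  have hOm : (0:ℝ) < (Om (Fin n) P).card := by
    rw [card_Om]; push_cast
    have : (0:ℝ) < P.card := by exact_mod_cast hPpos
    positivity
  have hcard : ((Om (Fin n) P).card : ℝ) ≤
      ∑ x ∈ (univ : Finset (Fin n × Fin n)).filter (fun x => x.1 ≠ x.2),
        (((Om (Fin n) P).filter (fun p => p x.1 = p x.2)).card : ℝ) +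
      ∑ S ∈ (univ : Finset (Finset (Fin n))).filter (fun S => n - S.card ≤ 2*k),
        ((BS m P S).card : ℝ) + (BS m P S0).card := by
    have h1 : (Om (Fin n) P).card ≤
      ∑ x ∈ (univ : Finset (Fin n × Fin n)).filter (fun x => x.1 ≠ x.2),
        ((Om (Fin n) P).filter (fun p => p x.1 = p x.2)).card +
      ∑ S ∈ (univ : Finset (Finset (Fin n))).filter (fun S => n - S.card ≤ 2*k),
        (BS m P S).card + (BS m P S0).card := by
      refine (Finset.card_le_card hcover).trans ((Finset.card_union_le _ _).trans ?_)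
      apply Nat.add_le_add_right
      refine (Finset.card_union_le _ _).trans ?_
      exact Nat.add_le_add Finset.card_biUnion_le Finset.card_biUnion_le
    exact_mod_cast h1
  have hA : ∑ x ∈ (univ : Finset (Fin n × Fin n)).filter (fun x => x.1 ≠ x.2),
        (((Om (Fin n) P).filter (fun p => p x.1 = p x.2)).card : ℝ) ≤ (Om (Fin n) P).card * (1/4) := by
    refine (Finset.sum_le_card_nsmul _ _ (((Om (Fin n) P).card : ℝ) / P.card) ?_).trans ?_
    · intro x hx
      exact card_coll hPpos (Finset.mem_filter.1 hx).2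
    · rw [nsmul_eq_mul]
      have h1 : ((((univ : Finset (Fin n × Fin n)).filter (fun x => x.1 ≠ x.2)).card : ℕ) : ℝ) ≤
          (2^m)^2 := by
        have : ((univ : Finset (Fin n × Fin n)).filter (fun x => x.1 ≠ x.2)).card ≤ (2^m)^2 := by
          refine (Finset.card_filter_le _ _).trans ?_
          rw [Finset.card_univ, Fintype.card_prod, Fintype.card_fin, sq]
          exact Nat.mul_le_mul hn hn
        exact_mod_cast this
      calc _ ≤ ((2:ℝ)^m)^2 * ((Om (Fin n) P).card / P.card) :=
            mul_le_mul_of_nonneg_right h1 (by positivity)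
        _ = (Om (Fin n) P).card * (((2:ℝ)^m)^2 / P.card) := by ring
        _ ≤ _ := by
            apply mul_le_mul_of_nonneg_left _ hOm.le
            rw [hP.card, div_le_iff₀ (by positivity)]
            push_cast
            have : (4:ℝ) * (2^m)^2 ≤ 2^(907*m) := by
              rw [show (4:ℝ) = 2^2 by norm_num, ← pow_mul, ← pow_add]
              exact pow_le_pow_right₀ (by norm_num) (by omega)
            linarith
  have hB : ∑ S ∈ (univ : Finset (Finset (Fin n))).filter (fun S => n - S.card ≤ 2*k),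
        ((BS m P S).card : ℝ) ≤ (Om (Fin n) P).card * (1/4) := by
    refine (Finset.sum_le_card_nsmul _ _ (((Om (Fin n) P).card : ℝ) * (1/2^((n-2*k)/2))) ?_).trans ?_
    · intro S hS
      have hS' := (Finset.mem_filter.1 hS).2
      have hSn : S.card ≤ n := by
        have := Finset.card_le_univ S
        rwa [Fintype.card_fin] at this
      refine (BS_card hP hm S (hSn.trans hn) (by omega)).trans ?_
      apply mul_le_mul_of_nonneg_left _ hOm.le
      apply one_div_le_one_div_of_le (by positivity)
      exact pow_le_pow_right₀ (by norm_num) (by omega)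
    · rw [nsmul_eq_mul]
      have h1 := family_count n k hkn
      calc _ ≤ (2:ℝ)^(n/10+n/8+1) * ((Om (Fin n) P).card * (1/2^((n-2*k)/2))) :=
            mul_le_mul_of_nonneg_right h1 (by positivity)
        _ = (Om (Fin n) P).card * (2^(n/10+n/8+1) / 2^((n-2*k)/2)) := by ring
        _ ≤ _ := by
            apply mul_le_mul_of_nonneg_left _ hOm.le
            rw [div_le_iff₀ (by positivity)]
            have : (4:ℝ) * 2^(n/10+n/8+1) ≤ 2^((n-2*k)/2) := by
              rw [show (4:ℝ) = 2^2 by norm_num, ← pow_add]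
              exact pow_le_pow_right₀ (by norm_num) (by omega)
            linarith
  have hC : ((BS m P S0).card : ℝ) ≤ (Om (Fin n) P).card * (1/4) := by
    refine (BS_card hP hm S0 (by omega) (by omega)).trans ?_
    apply mul_le_mul_of_nonneg_left _ hOm.le
    apply one_div_le_one_div_of_le (by norm_num)
    calc (4:ℝ) = 2^2 := by norm_num
      _ ≤ _ := pow_le_pow_right₀ (by norm_num) (by rw [hS0]; omega)
  linarith

end Crest.Agent.H6.Eg
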